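import Mathlib

/-!
# P146: selection of the variances of the fields (helper610)

`Φ` is a function of finitely many variances `w p`, with partial derivatives `χ p / 2`, and `χ p` has
a derivative `χ' p` in its own variable. If every `χ p` varies by at most `δ` on the box
`|w p - c p| ≤ R`, then there is ONE point of the open box at which `-χ' p ≤ 4 δ / R` for ALL `p`.
-/

open Filter Topology Set

namespace Vale.Agent.P146.H610.Win

variable {ι : Type} [Fintype ι] [DecidableEq ι]

/-- the closed box -/
def Bx (c : ι → ℝ) (R : ℝ) : Set (ι → ℝ) := {w | ∀ p, |w p - c p| ≤ R}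

/-- a function with bounded derivatives along the coordinates is Lipschitz on the box -/
lemma tele {T : (ι → ℝ) → ℝ} {D : ι → (ι → ℝ) → ℝ} {c : ι → ℝ} {R δ : ℝ}
    (hd : ∀ w ∈ Bx c R, ∀ p, HasDerivAt (fun t => T (Function.update w p t)) (D p w) (w p))
    (hb : ∀ w ∈ Bx c R, ∀ p, |D p w| ≤ δ) {w w' : ι → ℝ} (hw : w ∈ Bx c R) (hw' : w' ∈ Bx c R) :
    |T w' - T w| ≤ δ * ∑ p, |w' p - w p| := by
  have main : ∀ s : Finset ι, |T (fun p => if p ∈ s then w' p else w p) - T w| ≤
      δ * ∑ p ∈ s, |w' p - w p| := by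
    intro s
    induction s using Finset.induction_on with
    | empty => simp
    | insert q s hq ih =>
      obtain ⟨v, hv⟩ : ∃ v : ι → ℝ, v = fun p => if p ∈ s then w' p else w p := ⟨_, rfl⟩
      have hvB : v ∈ Bx c R := by
        intro p
        rw [hv]
        by_cases h : p ∈ s
        · simp only [h, if_true]; exact hw' p
        · simp only [h, if_false]; exact hw p
      have hvq : v q = w q := by rw [hv]; simp [hq]
      have e : (fun p => if p ∈ insert q s then w' p else w p) = Function.update v q (w' q) := by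
        funext p
        by_cases h : p = q
        · subst h; simp
        · rw [Function.update_of_ne h, hv]
          simp [Finset.mem_insert, h]
      have hu : ∀ t ∈ Icc (c q - R) (c q + R), Function.update v q t ∈ Bx c R := by
        intro t ht p
        by_cases h : p = q
        · subst h
          rw [Function.update_self]
          exact abs_le.2 ⟨by linarith [ht.1], by linarith [ht.2]⟩
        · rw [Function.update_of_ne h]
          exact hvB p
      have hder : ∀ t ∈ Icc (c q - R) (c q + R),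
          HasDerivWithinAt (fun t => T (Function.update v q t)) (D q (Function.update v q t))
            (Icc (c q - R) (c q + R)) t := by
        intro t ht
        have h := hd _ (hu t ht) q
        rw [Function.update_self] at h
        simp only [Function.update_idem] at h
        exact h.hasDerivWithinAt
      have hmv := (convex_Icc (c q - R) (c q + R)).norm_image_sub_le_of_norm_hasDerivWithin_le
        (C := δ) hder (fun t ht => by rw [Real.norm_eq_abs]; exact hb _ (hu t ht) q)
        (x := w q) (y := w' q)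
        (by have := abs_le.1 (hw q); exact ⟨by linarith, by linarith⟩)
        (by have := abs_le.1 (hw' q); exact ⟨by linarith, by linarith⟩)
      rw [Real.norm_eq_abs, Real.norm_eq_abs] at hmv
      have e2 : Function.update v q (w q) = v := by
        rw [← hvq]; exact Function.update_eq_self q v
      rw [e2] at hmv
      rw [e, Finset.sum_insert hq]
      have h3 : T (Function.update v q (w' q)) - T w =
          (T (Function.update v q (w' q)) - T v) + (T v - T w) := by ring
      rw [h3]
      refine (abs_add_le _ _).trans ?_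
      rw [← hv] at ih
      linarith
  have h := main Finset.univ
  simpa using h

/-- **the touching paraboloid** -/
theorem win {Φ : (ι → ℝ) → ℝ} {χ χ' : ι → (ι → ℝ) → ℝ} {c : ι → ℝ} {R δ : ℝ} (hR : 0 < R)
    (hδ : 0 < δ)
    (hd : ∀ w ∈ Bx c R, ∀ p, HasDerivAt (fun t => Φ (Function.update w p t)) (χ p w / 2) (w p))
    (hd' : ∀ w ∈ Bx c R, ∀ p, HasDerivAt (fun t => χ p (Function.update w p t)) (χ' p w) (w p))
    (hb : ∀ w ∈ Bx c R, ∀ p, |χ p w - χ p c| ≤ δ) :
    ∃ w : ι → ℝ, (∀ p, |w p - c p| < R) ∧ ∀ p, -χ' p w ≤ 4 * δ / R := by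
  obtain ⟨M, hM⟩ : ∃ M, M = 4 * δ / R := ⟨_, rfl⟩
  have hM0 : 0 < M := by rw [hM]; positivity
  have hMR : M * R = 4 * δ := by rw [hM]; field_simp
  obtain ⟨T, hT⟩ : ∃ T : (ι → ℝ) → ℝ, T = fun w => Φ w - ∑ p, χ p c / 2 * (w p - c p) := ⟨_, rfl⟩
  -- derivatives of `T`
  have hsum : ∀ (w : ι → ℝ) (p : ι) (t : ℝ),
      ∑ q, χ q c / 2 * (Function.update w p t q - c q) =
        χ p c / 2 * (t - c p) + ∑ q ∈ Finset.univ.erase p, χ q c / 2 * (w q - c q) := by
    intro w p t
    rw [← Finset.add_sum_erase Finset.univ _ (Finset.mem_univ p)]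
    simp only [Function.update_self]
    congr 1
    refine Finset.sum_congr rfl fun q hq => ?_
    rw [Function.update_of_ne (Finset.ne_of_mem_erase hq)]
  have hTd : ∀ w ∈ Bx c R, ∀ p, HasDerivAt (fun t => T (Function.update w p t))
      ((χ p w - χ p c) / 2) (w p) := by
    intro w hw p
    have h1 := hd w hw p
    have h2 : HasDerivAt (fun t : ℝ => χ p c / 2 * (t - c p) +
        ∑ q ∈ Finset.univ.erase p, χ q c / 2 * (w q - c q)) (χ p c / 2) (w p) := by
      have := (((hasDerivAt_id (w p)).sub_const (c p)).const_mul (χ p c / 2)).add_const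
        (∑ q ∈ Finset.univ.erase p, χ q c / 2 * (w q - c q))
      simpa using this
    have h3 := h1.sub h2
    have e : (fun t => T (Function.update w p t)) = fun t => Φ (Function.update w p t) -
        (χ p c / 2 * (t - c p) + ∑ q ∈ Finset.univ.erase p, χ q c / 2 * (w q - c q)) := by
      funext t
      rw [hT]
      simp only
      rw [hsum]
    rw [e]
    refine h3.congr_deriv ?_
    ring
  have hTb : ∀ w ∈ Bx c R, ∀ p, |(χ p w - χ p c) / 2| ≤ δ / 2 := by
    intro w hw p
    rw [abs_div, abs_of_pos (by norm_num : (0 : ℝ) < 2)]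
    have := hb w hw p
    linarith
  have hTl : ∀ {w w' : ι → ℝ}, w ∈ Bx c R → w' ∈ Bx c R →
      |T w' - T w| ≤ δ / 2 * ∑ p, |w' p - w p| := fun hw hw' => tele hTd hTb hw hw'
  -- compactness
  have hBe : Bx c R = Icc (fun p => c p - R) (fun p => c p + R) := by
    ext w
    simp only [Bx, mem_ofPred_eq, mem_Icc, Pi.le_def]
    constructor
    · intro h
      exact ⟨fun p => by linarith [(abs_le.1 (h p)).1], fun p => by linarith [(abs_le.1 (h p)).2]⟩
    · intro h p
      exact abs_le.2 ⟨by linarith [h.1 p], by linarith [h.2 p]⟩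
  have hcomp : IsCompact (Bx c R) := by rw [hBe]; exact isCompact_Icc
  have hcT : ContinuousOn T (Bx c R) := by
    intro w hw
    rw [ContinuousWithinAt, tendsto_iff_dist_tendsto_zero]
    have h0 : Tendsto (fun w' : ι → ℝ => δ / 2 * ∑ p, |w' p - w p|) (𝓝[Bx c R] w) (𝓝 0) := by
      have hc : Continuous fun w' : ι → ℝ => δ / 2 * ∑ p, |w' p - w p| := by fun_prop
      have := hc.tendsto w
      simp only [sub_self, abs_zero, Finset.sum_const_zero, mul_zero] at this
      exact this.mono_left nhdsWithin_le_nhds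
    refine squeeze_zero' (Eventually.of_forall fun _ => dist_nonneg) ?_ h0
    filter_upwards [self_mem_nhdsWithin] with w' hw'
    rw [Real.dist_eq]
    exact hTl hw hw'
  obtain ⟨g, hg⟩ : ∃ g : (ι → ℝ) → ℝ, g = fun w => T w + M / 4 * ∑ p, (w p - c p) ^ 2 := ⟨_, rfl⟩
  have hcg : ContinuousOn g (Bx c R) := by
    rw [hg]
    exact hcT.add (by fun_prop : Continuous fun w : ι → ℝ =>
      M / 4 * ∑ p, (w p - c p) ^ 2).continuousOn
  have hne : (Bx c R).Nonempty := ⟨c, fun p => by simpa using hR.le⟩
  obtain ⟨w, hw, hmin⟩ := hcomp.exists_isMinOn hne hcg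
  have hsq : ∀ (p : ι) (t : ℝ), ∑ q, (Function.update w p t q - c q) ^ 2 =
        (t - c p) ^ 2 + ∑ q ∈ Finset.univ.erase p, (w q - c q) ^ 2 := by
    intro p t
    rw [← Finset.add_sum_erase Finset.univ _ (Finset.mem_univ p)]
    simp only [Function.update_self]
    congr 1
    refine Finset.sum_congr rfl fun q hq => ?_
    rw [Function.update_of_ne (Finset.ne_of_mem_erase hq)]
  have hup : ∀ (p : ι) (t : ℝ), |t - c p| ≤ R → Function.update w p t ∈ Bx c R := by
    intro p t ht q
    by_cases h : q = p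
    · subst h; rw [Function.update_self]; exact ht
    · rw [Function.update_of_ne h]; exact hw q
  -- the minimum is interior
  have hint : ∀ p, |w p - c p| < R := by
    intro q
    by_contra hcon
    have hq : |w q - c q| = R := le_antisymm (hw q) (not_lt.1 hcon)
    have hw0 : Function.update w q (c q) ∈ Bx c R := hup q _ (by simpa using hR.le)
    have h1 := hmin hw0
    simp only [mem_ofPred_eq] at h1
    have h2 := hTl hw hw0
    have e1 : ∑ p, |Function.update w q (c q) p - w p| = R := by
      rw [← Finset.add_sum_erase Finset.univ _ (Finset.mem_univ q)]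
      simp only [Function.update_self]
      have e2 : ∑ p ∈ Finset.univ.erase q, |Function.update w q (c q) p - w p| = 0 := by
        refine Finset.sum_eq_zero fun p hp => ?_
        rw [Function.update_of_ne (Finset.ne_of_mem_erase hp), sub_self, abs_zero]
      rw [e2, add_zero, abs_sub_comm, hq]
    rw [e1] at h2
    have h3 : g (Function.update w q (c q)) - g w =
        (T (Function.update w q (c q)) - T w) - M / 4 * R ^ 2 := by
      have e3 : ∑ p, (w p - c p) ^ 2 = R ^ 2 + ∑ p ∈ Finset.univ.erase q, (w p - c p) ^ 2 := by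
        rw [← Finset.add_sum_erase Finset.univ _ (Finset.mem_univ q), ← hq, sq_abs]
      rw [hg]
      simp only
      rw [hsq, e3]
      ring
    have h4 := (abs_le.1 h2).2
    have h5 : M / 4 * R ^ 2 = δ * R := by
      have : M / 4 * R ^ 2 = M * R * R / 4 := by ring
      rw [this, hMR]; ring
    have h6 := h1
    nlinarith [mul_pos hδ hR]
  refine ⟨w, hint, fun p => ?_⟩
  rw [← hM]
  by_contra hcon
  have hD : χ' p w < -M := by linarith [not_le.1 hcon]
  -- the slice
  obtain ⟨h, hh⟩ : ∃ h : ℝ → ℝ, h = fun t => g (Function.update w p t) := ⟨_, rfl⟩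
  obtain ⟨h', hh'⟩ : ∃ h' : ℝ → ℝ, h' = fun t =>
    (χ p (Function.update w p t) - χ p c) / 2 + M / 2 * (t - c p) := ⟨_, rfl⟩
  have hdh : ∀ t, |t - c p| ≤ R → HasDerivAt h (h' t) t := by
    intro t ht
    have h1 := hTd _ (hup p t ht) p
    rw [Function.update_self] at h1
    simp only [Function.update_idem] at h1
    have h2 : HasDerivAt (fun t : ℝ => M / 4 * ((t - c p) ^ 2 +
        ∑ q ∈ Finset.univ.erase p, (w q - c q) ^ 2)) (M / 2 * (t - c p)) t := by
      have h3 := ((((hasDerivAt_id t).sub_const (c p)).pow 2).add_const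
        (∑ q ∈ Finset.univ.erase p, (w q - c q) ^ 2)).const_mul (M / 4)
      simp only [id_eq] at h3
      refine h3.congr_deriv ?_
      norm_num
      ring
    have e : h = fun t => T (Function.update w p t) + M / 4 * ((t - c p) ^ 2 +
        ∑ q ∈ Finset.univ.erase p, (w q - c q) ^ 2) := by
      funext t
      rw [hh, hg]
      simp only
      rw [hsq]
    rw [e, hh']
    exact h1.add h2
  have hdh' : HasDerivAt h' (χ' p w / 2 + M / 2) (w p) := by
    rw [hh']
    have h1 := hd' w hw p
    have h2 := ((h1.sub_const (χ p c)).div_const 2).add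
      (((hasDerivAt_id (w p)).sub_const (c p)).const_mul (M / 2))
    refine h2.congr_deriv ?_
    ring
  have hwu : Function.update w p (w p) = w := Function.update_eq_self p w
  have hmin' : ∀ t, |t - c p| ≤ R → h (w p) ≤ h t := by
    intro t ht
    have h1 := hmin (hup p t ht)
    simp only [mem_ofPred_eq] at h1
    rw [hh]
    simp only
    rw [hwu]
    exact h1
  have hnb : ∀ᶠ t in 𝓝 (w p), |t - c p| < R := by
    have hc : Continuous fun t : ℝ => |t - c p| := by fun_prop
    exact (hc.tendsto (w p)).eventually_lt_const (hint p)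
  have hloc : IsLocalMin h (w p) := by
    filter_upwards [hnb] with t ht
    exact hmin' t ht.le
  have hz : h' (w p) = 0 := hloc.hasDerivAt_eq_zero (hdh _ (hw p))
  have hneg : χ' p w / 2 + M / 2 < 0 := by linarith
  have hslope := (hasDerivAt_iff_tendsto_slope.1 hdh')
  have hev : ∀ᶠ t in 𝓝[≠] (w p), slope h' (w p) t < 0 := hslope.eventually_lt_const hneg
  rw [eventually_nhdsWithin_iff] at hev
  obtain ⟨ε, hε, hball⟩ := Metric.eventually_nhds_iff.1 (hev.and hnb)
  obtain ⟨t1, ht1⟩ : ∃ t1, t1 = w p + ε / 2 := ⟨_, rfl⟩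
  have hlt : w p < t1 := by rw [ht1]; linarith
  have hin : ∀ t ∈ Icc (w p) t1, |t - c p| < R ∧ (w p < t → h' t < 0) := by
    intro t ht
    have hd0 : dist t (w p) < ε := by
      rw [Real.dist_eq, abs_of_nonneg (by linarith [ht.1])]
      have := ht.2
      rw [ht1] at this
      linarith
    obtain ⟨h1, h2⟩ := hball hd0
    refine ⟨h2, fun hlt' => ?_⟩
    have h3 := h1 (ne_of_gt hlt')
    rw [slope_def_field, hz, sub_zero] at h3
    by_contra h4
    have h5 : 0 ≤ h' t / (t - w p) := div_nonneg (not_lt.1 h4) (by linarith)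
    linarith
  have hcont : ContinuousOn h (Icc (w p) t1) := fun t ht =>
    (hdh t (hin t ht).1.le).continuousAt.continuousWithinAt
  obtain ⟨ξ, hξ, heq⟩ := exists_hasDerivAt_eq_slope h h' hlt hcont fun t ht =>
    hdh t (hin t ⟨ht.1.le, ht.2.le⟩).1.le
  have h1 := (hin ξ ⟨hξ.1.le, hξ.2.le⟩).2 hξ.1
  have h2 := hmin' t1 (hin t1 ⟨hlt.le, le_rfl⟩).1.le
  rw [heq] at h1
  have h3 : 0 ≤ (h t1 - h (w p)) / (t1 - w p) := div_nonneg (by linarith) (by linarith)
  linarith

/-- **one point for finitely many functions at once**: concavity in every variable -/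
theorem win_all {J : Type} [Fintype J] [Nonempty J] {Φ : J → (ι → ℝ) → ℝ}
    {χ χ' : J → ι → (ι → ℝ) → ℝ} {c : ι → ℝ} {R δ : ℝ} (hR : 0 < R) (hδ : 0 < δ)
    (hd : ∀ j, ∀ w ∈ Bx c R, ∀ p,
      HasDerivAt (fun t => Φ j (Function.update w p t)) (χ j p w / 2) (w p))
    (hd' : ∀ j, ∀ w ∈ Bx c R, ∀ p,
      HasDerivAt (fun t => χ j p (Function.update w p t)) (χ' j p w) (w p))
    (hneg : ∀ j, ∀ w ∈ Bx c R, ∀ p, χ' j p w ≤ 0)
    (hb : ∀ j, ∀ w ∈ Bx c R, ∀ p, |χ j p w - χ j p c| ≤ δ) :
    ∃ w : ι → ℝ, (∀ p, |w p - c p| < R) ∧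
      ∀ j p, -χ' j p w ≤ 4 * (Fintype.card J * δ) / R := by
  have hJ : (0 : ℝ) < Fintype.card J := by exact_mod_cast Fintype.card_pos
  have k1 : ∀ w ∈ Bx c R, ∀ p, HasDerivAt (fun t => ∑ j, Φ j (Function.update w p t))
      ((∑ j, χ j p w) / 2) (w p) := by
    intro w hw p
    have h1 := HasDerivAt.fun_sum (u := Finset.univ) fun j _ => hd j w hw p
    rw [Finset.sum_div]
    exact h1
  have k2 : ∀ w ∈ Bx c R, ∀ p, HasDerivAt (fun t => ∑ j, χ j p (Function.update w p t))
      (∑ j, χ' j p w) (w p) := by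
    intro w hw p
    exact HasDerivAt.fun_sum (u := Finset.univ) fun j _ => hd' j w hw p
  have k3 : ∀ w ∈ Bx c R, ∀ p, |∑ j, χ j p w - ∑ j, χ j p c| ≤ Fintype.card J * δ := by
    intro w hw p
    rw [← Finset.sum_sub_distrib]
    refine (Finset.abs_sum_le_sum_abs _ _).trans ?_
    calc ∑ j, |χ j p w - χ j p c| ≤ ∑ _j : J, δ := Finset.sum_le_sum fun j _ => hb j w hw p
      _ = _ := by simp
  obtain ⟨w, hw, h⟩ := win (Φ := fun w => ∑ j, Φ j w) (χ := fun p w => ∑ j, χ j p w)
    (χ' := fun p w => ∑ j, χ' j p w) (c := c) hR (mul_pos hJ hδ) k1 k2 k3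
  refine ⟨w, hw, fun j p => ?_⟩
  have h1 := h p
  have hwB : w ∈ Bx c R := fun p => (hw p).le
  have h2 : -χ' j p w ≤ -∑ j, χ' j p w := by
    rw [← Finset.sum_neg_distrib]
    exact Finset.single_le_sum (f := fun j => -χ' j p w)
      (fun j _ => by linarith [hneg j w hwB p]) (Finset.mem_univ j)
  exact h2.trans h1

end Vale.Agent.P146.H610.Win
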