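import Vale.Agent.P146.H329.Swap
import Vale.Agent.P146.H863.Two

/-!
# P146: Brascamp-Lieb variance bounds for linear functions (helper610)

`V` concave with at most linear growth; the law `exp (V g) γ(dg)`. The variance of a linear function
is at most its variance under `γ`.
-/

open MeasureTheory ProbabilityTheory Filter Topology Set

namespace Vale.Agent.P146.H610

open Vale.Agent.P146 Vale.Agent.P146.H501

variable {ι κ : Type} [Fintype ι] [Fintype κ]

/-- continuous functions of at most linear growth -/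
structure Pot (V : (κ → ℝ) → ℝ) : Prop where
  cont : Continuous V
  bound : ∃ A B : ℝ, 0 ≤ A ∧ 0 ≤ B ∧ ∀ g, |V g| ≤ A + B * ∑ i, |g i|

lemma Pot.add {V W : (κ → ℝ) → ℝ} (hV : Pot V) (hW : Pot W) : Pot fun g => V g + W g := by
  obtain ⟨A, B, hA, hB, h⟩ := hV.bound
  obtain ⟨A', B', hA', hB', h'⟩ := hW.bound
  refine ⟨hV.cont.add hW.cont, A + A', B + B', by positivity, by positivity, fun g => ?_⟩
  have := abs_add_le (V g) (W g)
  have := h g
  have := h' g
  linarith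

lemma Pot.const_mul {V : (κ → ℝ) → ℝ} (hV : Pot V) (c : ℝ) : Pot fun g => c * V g := by
  obtain ⟨A, B, hA, hB, h⟩ := hV.bound
  refine ⟨hV.cont.const_mul c, |c| * A, |c| * B, by positivity, by positivity, fun g => ?_⟩
  rw [abs_mul]
  have := mul_le_mul_of_nonneg_left (h g) (abs_nonneg c)
  linarith

lemma Pot.lin (l : κ → ℝ) : Pot fun g => ∑ i, l i * g i := by
  refine ⟨by fun_prop, 0, ∑ i, |l i|, le_rfl, Finset.sum_nonneg fun _ _ => abs_nonneg _,
    fun g => ?_⟩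
  rw [zero_add, Finset.mul_sum]
  refine (Finset.abs_sum_le_sum_abs _ _).trans (Finset.sum_le_sum fun i _ => ?_)
  rw [abs_mul]
  exact mul_le_mul_of_nonneg_right (Finset.single_le_sum (f := fun i => |l i|)
    (fun _ _ => abs_nonneg _) (Finset.mem_univ i)) (abs_nonneg _)

lemma Pot.const (c : ℝ) : Pot fun _ : κ → ℝ => c :=
  ⟨continuous_const, |c|, 0, abs_nonneg c, le_rfl, fun g => by simp⟩

lemma Pot.exp {V : (κ → ℝ) → ℝ} (hV : Pot V) : Dom fun g => Real.exp (V g) := by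
  obtain ⟨A, B, hA, hB, h⟩ := hV.bound
  refine ⟨Real.continuous_exp.comp hV.cont, Real.exp A, B, (Real.exp_pos _).le, hB, fun g => ?_⟩
  rw [abs_of_pos (Real.exp_pos _), ← Real.exp_add]
  exact Real.exp_le_exp.2 ((le_abs_self _).trans (h g))

lemma Pot.gr {V : (κ → ℝ) → ℝ} (hV : Pot V) : H863.PL.Gr V := by
  obtain ⟨A, B, hA, hB, h⟩ := hV.bound
  exact ⟨A, B, fun g => (le_abs_self _).trans (h g)⟩

lemma Dom.lin (l : κ → ℝ) : Dom fun g : κ → ℝ => ∑ i, l i * g i :=
  Dom.sum _ fun i _ => (Dom.coord i).const_mul _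

/-- the translate -/
lemma Pot.shift {V : (κ → ℝ) → ℝ} (hV : Pot V) (m : κ → ℝ) : Pot fun g => V (g + m) := by
  obtain ⟨A, B, hA, hB, h⟩ := hV.bound
  refine ⟨hV.cont.comp (by fun_prop), A + B * ∑ i, |m i|, B, by positivity, hB, fun g => ?_⟩
  refine (h _).trans ?_
  have : ∑ i, |(g + m) i| ≤ ∑ i, |g i| + ∑ i, |m i| := by
    rw [← Finset.sum_add_distrib]
    exact Finset.sum_le_sum fun i _ => abs_add_le _ _
  nlinarith [mul_le_mul_of_nonneg_left this hB]

lemma int_exp_pos {V : (κ → ℝ) → ℝ} (hV : Pot V) : 0 < ∫ g, Real.exp (V g) ∂(gpi κ) := by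
  rw [integral_pos_iff_support_of_nonneg (fun g => (Real.exp_pos _).le) hV.exp.integrable]
  have e : Function.support (fun g => Real.exp (V g)) = univ :=
    Set.eq_univ_of_forall fun g => (Real.exp_pos _).ne'
  rw [e]
  simp

lemma cosh_ge (t : ℝ) : 1 + t ^ 2 / 2 ≤ (Real.exp t + Real.exp (-t)) / 2 := by
  rw [← Real.cosh_eq]
  have h1 : Real.cosh t = 1 + 2 * Real.sinh (t / 2) ^ 2 := by
    have h2 := Real.cosh_two_mul (t / 2)
    have h3 := Real.cosh_sq (t / 2)
    have e : 2 * (t / 2) = t := by ring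
    rw [e] at h2
    linarith
  have h2 : (t / 2) ^ 2 ≤ Real.sinh (t / 2) ^ 2 := by
    rcases le_total 0 (t / 2) with h | h
    · exact pow_le_pow_left₀ h (Real.self_le_sinh_iff.2 h) 2
    · have h4 := Real.sinh_le_self_iff.2 h
      nlinarith
  rw [h1]
  nlinarith

/-- **Brascamp-Lieb, symmetric case.** -/
theorem bl_even {V : (κ → ℝ) → ℝ} (hV : Pot V) (hc : ConcaveOn ℝ univ V) (l : κ → ℝ)
    (T : (κ → ℝ) → κ → ℝ) (hT : MeasurePreserving T (gpi κ) (gpi κ)) (hVT : ∀ g, V (T g) = V g)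
    (hl : ∀ g, ∑ i, l i * T g i = -∑ i, l i * g i) :
    ∫ g, (∑ i, l i * g i) ^ 2 * Real.exp (V g) ∂(gpi κ) ≤
      (∑ i, l i ^ 2) * ∫ g, Real.exp (V g) ∂(gpi κ) := by
  obtain ⟨L, hL⟩ : ∃ L, L = ∑ i, l i ^ 2 := ⟨_, rfl⟩
  have hL0 : 0 ≤ L := by rw [hL]; exact Finset.sum_nonneg fun _ _ => sq_nonneg _
  -- the shifted integral
  have hN : ConcaveOn ℝ univ fun μ : ℝ =>
      Real.log (∫ g, Real.exp (V (g + μ • l)) ∂(gpi κ)) := by
    have key := H863.PL.gauss (κ := κ) (E := ℝ) (fun μ g => V (g + μ • l)) ?_ ?_ ?_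
    · exact key
    · refine ⟨convex_univ, fun p _ q _ a b ha hb hab => ?_⟩
      have h := hc.2 (mem_univ (p.2 + p.1 • l)) (mem_univ (q.2 + q.1 • l)) ha hb hab
      have e : a • (p.2 + p.1 • l) + b • (q.2 + q.1 • l) =
          (a • p + b • q).2 + (a • p + b • q).1 • l := by
        funext i
        simp only [Prod.snd_add, Prod.smul_snd, Prod.fst_add, Prod.smul_fst, Pi.add_apply,
          Pi.smul_apply, smul_eq_mul]
        ring
      rw [e] at h
      exact h
    · exact fun μ => (hV.shift _).cont.measurable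
    · exact fun μ => (hV.shift _).gr
  have hpos : ∀ μ : ℝ, 0 < ∫ g, Real.exp (V (g + μ • l)) ∂(gpi κ) :=
    fun μ => int_exp_pos (hV.shift _)
  have hM : ∀ μ : ℝ, ∫ g, Real.exp (μ * ∑ i, l i * g i) * Real.exp (V g) ∂(gpi κ) =
      Real.exp (μ ^ 2 * L / 2) * ∫ g, Real.exp (V (g + μ • l)) ∂(gpi κ) := by
    intro μ
    have h := H329.SW.shift_int (μ • l) (fun g => Real.exp (V g))
    have e1 : ∑ i, (μ • l) i ^ 2 = μ ^ 2 * L := by
      rw [hL, Finset.mul_sum]
      exact Finset.sum_congr rfl fun i _ => by rw [Pi.smul_apply, smul_eq_mul]; ring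
    have e2 : ∀ g : κ → ℝ, ∑ i, (μ • l) i * g i = μ * ∑ i, l i * g i := by
      intro g
      rw [Finset.mul_sum]
      exact Finset.sum_congr rfl fun i _ => by rw [Pi.smul_apply, smul_eq_mul]; ring
    rw [e1] at h
    simp only [e2] at h
    exact h
  have hsym : ∀ μ : ℝ, ∫ g, Real.exp (-μ * ∑ i, l i * g i) * Real.exp (V g) ∂(gpi κ) =
      ∫ g, Real.exp (μ * ∑ i, l i * g i) * Real.exp (V g) ∂(gpi κ) := by
    intro μ
    have hcont : Continuous fun g : κ → ℝ => Real.exp (-μ * ∑ i, l i * g i) * Real.exp (V g) :=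
      (by fun_prop : Continuous fun g : κ → ℝ => Real.exp (-μ * ∑ i, l i * g i)).mul
        (Real.continuous_exp.comp hV.cont)
    conv_lhs => rw [← hT.map_eq]
    rw [integral_map hT.measurable.aemeasurable hcont.aestronglyMeasurable]
    refine integral_congr_ae (Eventually.of_forall fun g => ?_)
    simp only
    rw [hl, hVT]
    congr 2
    ring
  have hNs : ∀ μ : ℝ, ∫ g, Real.exp (V (g + (-μ) • l)) ∂(gpi κ) =
      ∫ g, Real.exp (V (g + μ • l)) ∂(gpi κ) := by
    intro μ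
    have h1 := hM (-μ)
    have h2 := hM μ
    rw [hsym μ, h2] at h1
    have e : (-μ) ^ 2 * L / 2 = μ ^ 2 * L / 2 := by ring
    rw [e] at h1
    exact (mul_left_cancel₀ (Real.exp_pos _).ne' h1).symm
  have hle : ∀ μ : ℝ, ∫ g, Real.exp (V (g + μ • l)) ∂(gpi κ) ≤
      ∫ g, Real.exp (V g) ∂(gpi κ) := by
    intro μ
    have h := hN.2 (mem_univ μ) (mem_univ (-μ)) (by norm_num : (0 : ℝ) ≤ 1 / 2)
      (by norm_num : (0 : ℝ) ≤ 1 / 2) (by norm_num)
    simp only [smul_eq_mul] at h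
    rw [hNs μ] at h
    have e : (1 / 2 * μ + 1 / 2 * -μ : ℝ) = 0 := by ring
    rw [e] at h
    have h1 : Real.log (∫ g, Real.exp (V (g + μ • l)) ∂(gpi κ)) ≤
        Real.log (∫ g, Real.exp (V (g + (0 : ℝ) • l)) ∂(gpi κ)) := by linarith
    have h2 := (Real.log_le_log_iff (hpos μ) (hpos 0)).1 h1
    simpa using h2
  -- the hyperbolic cosine
  have hD1 : Dom fun g : κ → ℝ => (∑ i, l i * g i) ^ 2 * Real.exp (V g) :=
    ((Dom.lin l).pow 2).mul hV.exp
  have hDe : ∀ μ : ℝ, Dom fun g : κ → ℝ => Real.exp (μ * ∑ i, l i * g i) * Real.exp (V g) :=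
    fun μ => ((Pot.lin l).const_mul μ).exp.mul hV.exp
  obtain ⟨I, hI⟩ : ∃ I, I = ∫ g, Real.exp (V g) ∂(gpi κ) := ⟨_, rfl⟩
  obtain ⟨J, hJ⟩ : ∃ J, J = ∫ g, (∑ i, l i * g i) ^ 2 * Real.exp (V g) ∂(gpi κ) := ⟨_, rfl⟩
  have hI0 : 0 < I := by rw [hI]; exact int_exp_pos hV
  have main : ∀ μ : ℝ, 0 < μ → J ≤ L * Real.exp (μ ^ 2 * L / 2) * I := by
    intro μ hμ
    have h1 : ∫ g, (2 * Real.exp (V g) + μ ^ 2 * ((∑ i, l i * g i) ^ 2 * Real.exp (V g)))
        ∂(gpi κ) ≤ ∫ g, (Real.exp (μ * ∑ i, l i * g i) * Real.exp (V g) +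
          Real.exp (-μ * ∑ i, l i * g i) * Real.exp (V g)) ∂(gpi κ) := by
      refine int_mono ((hV.exp.const_mul 2).add (hD1.const_mul _)) ((hDe μ).add (hDe (-μ)))
        fun g => ?_
      obtain ⟨t, ht⟩ : ∃ t, t = μ * ∑ i, l i * g i := ⟨_, rfl⟩
      have h2 := cosh_ge t
      have h3 := Real.exp_pos (V g)
      have e1 : -μ * ∑ i, l i * g i = -t := by rw [ht]; ring
      rw [e1, ← ht]
      have e2 : μ ^ 2 * ((∑ i, l i * g i) ^ 2 * Real.exp (V g)) = t ^ 2 * Real.exp (V g) := by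
        rw [ht]; ring
      rw [e2]
      nlinarith [mul_le_mul_of_nonneg_right h2 h3.le]
    rw [int_add (hV.exp.const_mul 2) (hD1.const_mul _), int_add (hDe μ) (hDe (-μ)),
      integral_const_mul, integral_const_mul, hsym μ, hM μ, ← hI, ← hJ] at h1
    have h2 : ∫ g, Real.exp (V (g + μ • l)) ∂(gpi κ) ≤ I := by rw [hI]; exact hle μ
    have h3 := mul_le_mul_of_nonneg_left h2 (Real.exp_pos (μ ^ 2 * L / 2)).le
    have h4 : μ ^ 2 * J ≤ 2 * (Real.exp (μ ^ 2 * L / 2) - 1) * I := by nlinarith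
    have h5 : Real.exp (μ ^ 2 * L / 2) - 1 ≤ μ ^ 2 * L / 2 * Real.exp (μ ^ 2 * L / 2) := by
      have h6 := Real.add_one_le_exp (-(μ ^ 2 * L / 2))
      have h7 := Real.exp_pos (μ ^ 2 * L / 2)
      have h8 : Real.exp (-(μ ^ 2 * L / 2)) * Real.exp (μ ^ 2 * L / 2) = 1 := by
        rw [← Real.exp_add]; simp
      nlinarith [mul_le_mul_of_nonneg_right h6 h7.le]
    have h6 : μ ^ 2 * J ≤ μ ^ 2 * (L * Real.exp (μ ^ 2 * L / 2) * I) := by
      have := mul_le_mul_of_nonneg_right h5 hI0.le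
      nlinarith
    exact le_of_mul_le_mul_left h6 (by positivity)
  have hlim : Tendsto (fun μ : ℝ => L * Real.exp (μ ^ 2 * L / 2) * I) (𝓝[>] 0) (𝓝 (L * I)) := by
    have : Tendsto (fun μ : ℝ => L * Real.exp (μ ^ 2 * L / 2) * I) (𝓝 0)
        (𝓝 (L * Real.exp (0 ^ 2 * L / 2) * I)) := by
      apply Continuous.tendsto
      fun_prop
    simp only [ne_eq, OfNat.ofNat_ne_zero, not_false_eq_true, zero_pow, zero_mul, zero_div,
      Real.exp_zero, mul_one] at this
    exact this.mono_left nhdsWithin_le_nhds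
  have := ge_of_tendsto hlim (by
    filter_upwards [self_mem_nhdsWithin] with μ hμ
    exact main μ hμ)
  rw [← hJ, ← hL, ← hI]
  exact this

/-- reindexing of a Gaussian vector -/
lemma mp_perm (e : κ ≃ κ) : MeasurePreserving (fun (g : κ → ℝ) i => g (e i)) (gpi κ) (gpi κ) := by
  have h := measurePreserving_piCongrLeft (fun _ : κ => gaussianReal 0 1) e.symm
  have e1 : (fun (g : κ → ℝ) i => g (e i)) =
      ⇑(MeasurableEquiv.piCongrLeft (fun _ : κ => ℝ) e.symm) := by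
    funext g i
    have h2 := Equiv.piCongrLeft_apply_apply (P := fun _ : κ => ℝ) e.symm g (e i)
    rw [Equiv.symm_apply_apply] at h2
    rw [MeasurableEquiv.coe_piCongrLeft]
    exact h2.symm
  rw [e1]
  exact h

/-- **Brascamp-Lieb for linear functions.** -/
theorem bl_var {V : (κ → ℝ) → ℝ} (hV : Pot V) (hc : ConcaveOn ℝ univ V) (l : κ → ℝ) :
    (∫ g, (∑ i, l i * g i) ^ 2 * Real.exp (V g) ∂(gpi κ)) * ∫ g, Real.exp (V g) ∂(gpi κ) -
      (∫ g, (∑ i, l i * g i) * Real.exp (V g) ∂(gpi κ)) ^ 2 ≤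
      (∑ i, l i ^ 2) * (∫ g, Real.exp (V g) ∂(gpi κ)) ^ 2 := by
  obtain ⟨A, B, hA, hB, hbd⟩ := hV.bound
  have hW : Pot fun g : κ ⊕ κ → ℝ => V (fun i => g (Sum.inl i)) + V fun i => g (Sum.inr i) := by
    have hc1 : ∀ g : κ ⊕ κ → ℝ, ∑ i, |g (Sum.inl i)| ≤ ∑ e, |g e| := fun g => by
      rw [Fintype.sum_sum_type]
      linarith [sum_abs_nonneg fun i => g (Sum.inr i)]
    have hc2 : ∀ g : κ ⊕ κ → ℝ, ∑ i, |g (Sum.inr i)| ≤ ∑ e, |g e| := fun g => by
      rw [Fintype.sum_sum_type]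
      linarith [sum_abs_nonneg fun i => g (Sum.inl i)]
    refine Pot.add ?_ ?_
    · exact ⟨hV.cont.comp (by fun_prop), A, B, hA, hB, fun g => (hbd _).trans
        (by nlinarith [mul_le_mul_of_nonneg_left (hc1 g) hB])⟩
    · exact ⟨hV.cont.comp (by fun_prop), A, B, hA, hB, fun g => (hbd _).trans
        (by nlinarith [mul_le_mul_of_nonneg_left (hc2 g) hB])⟩
  have hWc : ConcaveOn ℝ univ fun g : κ ⊕ κ → ℝ =>
      V (fun i => g (Sum.inl i)) + V fun i => g (Sum.inr i) := by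
    refine ⟨convex_univ, fun p _ q _ a b ha hb hab => ?_⟩
    have h1 := hc.2 (mem_univ fun i => p (Sum.inl i)) (mem_univ fun i => q (Sum.inl i)) ha hb hab
    have h2 := hc.2 (mem_univ fun i => p (Sum.inr i)) (mem_univ fun i => q (Sum.inr i)) ha hb hab
    simp only [smul_eq_mul] at h1 h2 ⊢
    have e1 : (a • fun i => p (Sum.inl i)) + b • (fun i => q (Sum.inl i)) =
        fun i => (a • p + b • q) (Sum.inl i) := by
      funext i
      simp only [Pi.add_apply, Pi.smul_apply]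
    have e2 : (a • fun i => p (Sum.inr i)) + b • (fun i => q (Sum.inr i)) =
        fun i => (a • p + b • q) (Sum.inr i) := by
      funext i
      simp only [Pi.add_apply, Pi.smul_apply]
    rw [e1] at h1
    rw [e2] at h2
    linarith
  have key := bl_even hW hWc (Sum.elim l fun i => -l i)
    (fun g e => g ((Equiv.sumComm κ κ) e)) (mp_perm _) (fun g => ?_) (fun g => ?_)
  · have e1 : ∀ g : κ ⊕ κ → ℝ, ∑ e, (Sum.elim l (fun i => -l i) : κ ⊕ κ → ℝ) e * g e =
        ∑ i, l i * g (Sum.inl i) - ∑ i, l i * g (Sum.inr i) := by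
      intro g
      rw [Fintype.sum_sum_type]
      simp only [Sum.elim_inl, Sum.elim_inr, neg_mul, Finset.sum_neg_distrib]
      ring
    have e2 : ∑ e, (Sum.elim l (fun i => -l i) : κ ⊕ κ → ℝ) e ^ 2 = 2 * ∑ i, l i ^ 2 := by
      rw [Fintype.sum_sum_type]
      simp only [Sum.elim_inl, Sum.elim_inr, neg_sq]
      ring
    simp only [e1, e2] at key
    have dL : Dom fun g : κ → ℝ => ∑ i, l i * g i := Dom.lin l
    have d0 := hV.exp
    have hD1 : Dom fun g : κ ⊕ κ → ℝ => (∑ i, l i * g (Sum.inl i) - ∑ i, l i * g (Sum.inr i)) ^ 2 *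
        Real.exp (V (fun i => g (Sum.inl i)) + V fun i => g (Sum.inr i)) := by
      refine Dom.mul (Dom.pow (Dom.sub ?_ ?_) 2) hW.exp
      · exact Dom.sum _ fun i _ => (Dom.coord _).const_mul _
      · exact Dom.sum _ fun i _ => (Dom.coord _).const_mul _
    rw [H863.D29.int_sum_type hD1.integrable, H863.D29.int_sum_type hW.exp.integrable] at key
    simp only [Sum.elim_inl, Sum.elim_inr] at key
    obtain ⟨I, hI⟩ : ∃ I, I = ∫ g, Real.exp (V g) ∂(gpi κ) := ⟨_, rfl⟩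
    obtain ⟨J, hJ⟩ : ∃ J, J = ∫ g, (∑ i, l i * g i) * Real.exp (V g) ∂(gpi κ) := ⟨_, rfl⟩
    obtain ⟨Q, hQ⟩ : ∃ Q, Q = ∫ g, (∑ i, l i * g i) ^ 2 * Real.exp (V g) ∂(gpi κ) := ⟨_, rfl⟩
    have i1 : ∀ K : κ → ℝ, ∫ f, (∑ i, l i * K i - ∑ i, l i * f i) ^ 2 *
        Real.exp (V (fun i => K i) + V fun i => f i) ∂(gpi κ) =
        I * ((∑ i, l i * K i) ^ 2 * Real.exp (V K)) - 2 * J * ((∑ i, l i * K i) * Real.exp (V K)) +
          Q * Real.exp (V K) := by
      intro K
      have e3 : ∀ f : κ → ℝ, (∑ i, l i * K i - ∑ i, l i * f i) ^ 2 *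
          Real.exp (V (fun i => K i) + V fun i => f i) =
          (∑ i, l i * K i) ^ 2 * Real.exp (V K) * Real.exp (V f) +
          (-(2 * (∑ i, l i * K i) * Real.exp (V K)) * ((∑ i, l i * f i) * Real.exp (V f)) +
          Real.exp (V K) * ((∑ i, l i * f i) ^ 2 * Real.exp (V f))) := by
        intro f
        rw [Real.exp_add]
        ring
      simp only [e3]
      rw [int_add (d0.const_mul _) (((dL.mul d0).const_mul _).add (((dL.pow 2).mul d0).const_mul _)),
        int_add ((dL.mul d0).const_mul _) (((dL.pow 2).mul d0).const_mul _), integral_const_mul,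
        integral_const_mul, integral_const_mul, ← hI, ← hJ, ← hQ]
      ring
    have i2 : ∀ K : κ → ℝ, ∫ f, Real.exp (V (fun i => K i) + V fun i => f i) ∂(gpi κ) =
        I * Real.exp (V K) := by
      intro K
      have e3 : ∀ f : κ → ℝ, Real.exp (V (fun i => K i) + V fun i => f i) =
          Real.exp (V K) * Real.exp (V f) := fun f => by rw [Real.exp_add]
      simp only [e3]
      rw [integral_const_mul, ← hI]
      ring
    simp only [i1, i2] at key
    rw [int_add ((((dL.pow 2).mul d0).const_mul _).sub ((dL.mul d0).const_mul _))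
      (d0.const_mul _), int_sub (((dL.pow 2).mul d0).const_mul _) ((dL.mul d0).const_mul _),
      integral_const_mul, integral_const_mul, integral_const_mul, integral_const_mul, ← hI, ← hJ,
      ← hQ] at key
    rw [← hI, ← hJ, ← hQ]
    nlinarith
  · simp only [Equiv.sumComm_apply, Sum.swap_inl, Sum.swap_inr]
    ring
  · rw [Fintype.sum_sum_type, Fintype.sum_sum_type]
    simp only [Equiv.sumComm_apply, Sum.swap_inl, Sum.swap_inr, Sum.elim_inl, Sum.elim_inr,
      neg_mul, Finset.sum_neg_distrib]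
    ring

end Vale.Agent.P146.H610
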