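import Vale.Agent.P146.H610.BL

/-!
# P146: parametric functions of Gaussian vectors (helper610)
-/

open MeasureTheory ProbabilityTheory Filter Topology Set

namespace Vale.Agent.P146.H610

open Vale.Agent.P146 Vale.Agent.P146.H501

variable {ι κ : Type} [Fintype ι] [Fintype κ]

/-- continuous, of at most exponential growth, locally uniformly in the parameter -/
structure PD (F : ℝ → (κ → ℝ) → ℝ) : Prop where
  cont : Continuous fun p : ℝ × (κ → ℝ) => F p.1 p.2
  bound : ∀ M : ℝ, ∃ C c : ℝ, 0 ≤ C ∧ 0 ≤ c ∧ ∀ t, |t| ≤ M → ∀ g,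
    |F t g| ≤ C * Real.exp (c * ∑ i, |g i|)

/-- continuous, of at most linear growth, locally uniformly in the parameter -/
structure PL (V : ℝ → (κ → ℝ) → ℝ) : Prop where
  cont : Continuous fun p : ℝ × (κ → ℝ) => V p.1 p.2
  bound : ∀ M : ℝ, ∃ A B : ℝ, 0 ≤ A ∧ 0 ≤ B ∧ ∀ t, |t| ≤ M → ∀ g,
    |V t g| ≤ A + B * ∑ i, |g i|

lemma PD.dom {F : ℝ → (κ → ℝ) → ℝ} (h : PD F) (t : ℝ) : Dom (F t) := by
  obtain ⟨C, c, hC, hc, hb⟩ := h.bound |t|
  exact ⟨h.cont.comp (by fun_prop : Continuous fun g : κ → ℝ => (t, g)), C, c, hC, hc,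
    fun g => hb t le_rfl g⟩

lemma PL.pot {V : ℝ → (κ → ℝ) → ℝ} (h : PL V) (t : ℝ) : Pot (V t) := by
  obtain ⟨C, c, hC, hc, hb⟩ := h.bound |t|
  exact ⟨h.cont.comp (by fun_prop : Continuous fun g : κ → ℝ => (t, g)), C, c, hC, hc,
    fun g => hb t le_rfl g⟩

lemma PD.of_dom {f : (κ → ℝ) → ℝ} (h : Dom f) : PD fun _ : ℝ => f := by
  obtain ⟨C, c, hC, hc, hb⟩ := h.bound
  exact ⟨h.cont.comp continuous_snd, fun M => ⟨C, c, hC, hc, fun t _ g => hb g⟩⟩

lemma PL.of_pot {f : (κ → ℝ) → ℝ} (h : Pot f) : PL fun _ : ℝ => f := by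
  obtain ⟨C, c, hC, hc, hb⟩ := h.bound
  exact ⟨h.cont.comp continuous_snd, fun M => ⟨C, c, hC, hc, fun t _ g => hb g⟩⟩

lemma PD.add {F G : ℝ → (κ → ℝ) → ℝ} (hF : PD F) (hG : PD G) : PD fun t g => F t g + G t g := by
  refine ⟨hF.cont.add hG.cont, fun M => ?_⟩
  obtain ⟨C, c, hC, hc, hb⟩ := hF.bound M
  obtain ⟨C', c', hC', hc', hb'⟩ := hG.bound M
  refine ⟨C + C', max c c', by positivity, le_max_of_le_left hc, fun t ht g => ?_⟩
  have s := sum_abs_nonneg g
  calc |F t g + G t g| ≤ |F t g| + |G t g| := abs_add_le _ _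
    _ ≤ C * Real.exp (c * ∑ i, |g i|) + C' * Real.exp (c' * ∑ i, |g i|) :=
        add_le_add (hb t ht g) (hb' t ht g)
    _ ≤ C * Real.exp (max c c' * ∑ i, |g i|) + C' * Real.exp (max c c' * ∑ i, |g i|) := by
        gcongr
        · exact le_max_left _ _
        · exact le_max_right _ _
    _ = (C + C') * Real.exp (max c c' * ∑ i, |g i|) := by ring

lemma PD.mul {F G : ℝ → (κ → ℝ) → ℝ} (hF : PD F) (hG : PD G) : PD fun t g => F t g * G t g := by
  refine ⟨hF.cont.mul hG.cont, fun M => ?_⟩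
  obtain ⟨C, c, hC, hc, hb⟩ := hF.bound M
  obtain ⟨C', c', hC', hc', hb'⟩ := hG.bound M
  refine ⟨C * C', c + c', by positivity, by positivity, fun t ht g => ?_⟩
  calc |F t g * G t g| = |F t g| * |G t g| := abs_mul _ _
    _ ≤ (C * Real.exp (c * ∑ i, |g i|)) * (C' * Real.exp (c' * ∑ i, |g i|)) :=
        mul_le_mul (hb t ht g) (hb' t ht g) (abs_nonneg _) (by positivity)
    _ = (C * C') * Real.exp ((c + c') * ∑ i, |g i|) := by
        rw [add_mul, Real.exp_add]; ring

lemma PD.param {φ : ℝ → ℝ} (hφ : Continuous φ) : PD fun t (_ : κ → ℝ) => φ t := by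
  refine ⟨hφ.comp continuous_fst, fun M => ?_⟩
  obtain ⟨C, hC⟩ := (isCompact_Icc (a := -M) (b := M)).exists_bound_of_continuousOn
    hφ.continuousOn
  refine ⟨|C|, 0, abs_nonneg _, le_rfl, fun t ht g => ?_⟩
  have := hC t (abs_le.1 ht)
  rw [Real.norm_eq_abs] at this
  simpa using this.trans (le_abs_self C)

lemma PD.const_mul {F : ℝ → (κ → ℝ) → ℝ} (hF : PD F) (a : ℝ) : PD fun t g => a * F t g :=
  (PD.param (φ := fun _ => a) continuous_const).mul hF

lemma PD.neg {F : ℝ → (κ → ℝ) → ℝ} (hF : PD F) : PD fun t g => -F t g := by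
  have h := hF.const_mul (-1)
  simpa using h

lemma PD.sub {F G : ℝ → (κ → ℝ) → ℝ} (hF : PD F) (hG : PD G) : PD fun t g => F t g - G t g := by
  have h := hF.add hG.neg
  simpa [sub_eq_add_neg] using h

lemma PD.sum {α : Type*} (s : Finset α) {F : α → ℝ → (κ → ℝ) → ℝ} (hF : ∀ a ∈ s, PD (F a)) :
    PD fun t g => ∑ a ∈ s, F a t g := by
  classical
  induction s using Finset.induction_on with
  | empty => simpa using PD.param (κ := κ) (φ := fun _ => 0) continuous_const
  | insert a s ha ih =>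
    simp only [Finset.sum_insert ha]
    exact (hF a (Finset.mem_insert_self _ _)).add
      (ih fun k hk => hF k (Finset.mem_insert_of_mem hk))

lemma PL.add {V W : ℝ → (κ → ℝ) → ℝ} (hV : PL V) (hW : PL W) : PL fun t g => V t g + W t g := by
  refine ⟨hV.cont.add hW.cont, fun M => ?_⟩
  obtain ⟨A, B, hA, hB, h⟩ := hV.bound M
  obtain ⟨A', B', hA', hB', h'⟩ := hW.bound M
  refine ⟨A + A', B + B', by positivity, by positivity, fun t ht g => ?_⟩
  have := abs_add_le (V t g) (W t g)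
  have := h t ht g
  have := h' t ht g
  linarith

lemma PL.const_mul {V : ℝ → (κ → ℝ) → ℝ} (hV : PL V) (c : ℝ) : PL fun t g => c * V t g := by
  refine ⟨hV.cont.const_mul c, fun M => ?_⟩
  obtain ⟨A, B, hA, hB, h⟩ := hV.bound M
  refine ⟨|c| * A, |c| * B, by positivity, by positivity, fun t ht g => ?_⟩
  rw [abs_mul]
  have := mul_le_mul_of_nonneg_left (h t ht g) (abs_nonneg c)
  linarith

lemma PL.sub {V W : ℝ → (κ → ℝ) → ℝ} (hV : PL V) (hW : PL W) : PL fun t g => V t g - W t g := by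
  have h := hV.add (hW.const_mul (-1))
  simpa [sub_eq_add_neg] using h

/-- linear functions with coefficients which are continuous in the parameter -/
lemma PL.lin {l : ℝ → κ → ℝ} (hl : ∀ i, Continuous fun t => l t i) :
    PL fun t g => ∑ i, l t i * g i := by
  refine ⟨continuous_finsetSum _ fun i _ => ((hl i).comp continuous_fst).mul
    ((continuous_apply i).comp continuous_snd), fun M => ?_⟩
  have hc : Continuous fun t => ∑ i, |l t i| :=
    continuous_finsetSum _ fun i _ => (hl i).abs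
  obtain ⟨C, hC⟩ := (isCompact_Icc (a := -M) (b := M)).exists_bound_of_continuousOn
    hc.continuousOn
  refine ⟨0, |C|, le_rfl, abs_nonneg _, fun t ht g => ?_⟩
  have h1 := hC t (abs_le.1 ht)
  rw [Real.norm_eq_abs] at h1
  rw [zero_add, Finset.mul_sum]
  refine (Finset.abs_sum_le_sum_abs _ _).trans (Finset.sum_le_sum fun i _ => ?_)
  rw [abs_mul]
  refine mul_le_mul_of_nonneg_right ?_ (abs_nonneg _)
  calc |l t i| ≤ ∑ i, |l t i| := Finset.single_le_sum (f := fun i => |l t i|)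
        (fun _ _ => abs_nonneg _) (Finset.mem_univ i)
    _ ≤ _ := (le_abs_self _).trans (h1.trans (le_abs_self C))

lemma PL.exp {V : ℝ → (κ → ℝ) → ℝ} (hV : PL V) : PD fun t g => Real.exp (V t g) := by
  refine ⟨Real.continuous_exp.comp hV.cont, fun M => ?_⟩
  obtain ⟨A, B, hA, hB, h⟩ := hV.bound M
  refine ⟨Real.exp A, B, (Real.exp_pos _).le, hB, fun t ht g => ?_⟩
  rw [abs_of_pos (Real.exp_pos _), ← Real.exp_add]
  exact Real.exp_le_exp.2 ((le_abs_self _).trans (h t ht g))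

lemma sum_comp_le (σ : ι → κ) (g : κ → ℝ) :
    ∑ i, |g (σ i)| ≤ Fintype.card ι * ∑ j, |g j| := by
  calc ∑ i, |g (σ i)| ≤ ∑ _i : ι, ∑ j, |g j| := Finset.sum_le_sum fun i _ =>
        Finset.single_le_sum (f := fun j => |g j|) (fun _ _ => abs_nonneg _) (Finset.mem_univ _)
    _ = _ := by simp

/-- reindexing of the coordinates -/
lemma PL.comp {V : ℝ → (ι → ℝ) → ℝ} (hV : PL V) (σ : ι → κ) :
    PL fun t (g : κ → ℝ) => V t fun i => g (σ i) := by
  refine ⟨hV.cont.comp (by fun_prop : Continuous fun p : ℝ × (κ → ℝ) =>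
    (p.1, fun i => p.2 (σ i))), fun M => ?_⟩
  obtain ⟨A, B, hA, hB, h⟩ := hV.bound M
  refine ⟨A, B * Fintype.card ι, hA, by positivity, fun t ht g => (h t ht _).trans ?_⟩
  have := mul_le_mul_of_nonneg_left (sum_comp_le σ g) hB
  linarith

lemma PD.comp {F : ℝ → (ι → ℝ) → ℝ} (hF : PD F) (σ : ι → κ) :
    PD fun t (g : κ → ℝ) => F t fun i => g (σ i) := by
  refine ⟨hF.cont.comp (by fun_prop : Continuous fun p : ℝ × (κ → ℝ) =>
    (p.1, fun i => p.2 (σ i))), fun M => ?_⟩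
  obtain ⟨C, c, hC, hc, h⟩ := hF.bound M
  refine ⟨C, c * Fintype.card ι, hC, by positivity, fun t ht g => (h t ht _).trans ?_⟩
  have := mul_le_mul_of_nonneg_left (sum_comp_le σ g) hc
  exact mul_le_mul_of_nonneg_left (Real.exp_le_exp.2 (by linarith)) hC

lemma Pot.comp {V : (ι → ℝ) → ℝ} (hV : Pot V) (σ : ι → κ) :
    Pot fun (g : κ → ℝ) => V fun i => g (σ i) := ((PL.of_pot hV).comp σ).pot 0

lemma Dom.comp {V : (ι → ℝ) → ℝ} (hV : Dom V) (σ : ι → κ) :
    Dom fun (g : κ → ℝ) => V fun i => g (σ i) := ((PD.of_dom hV).comp σ).dom 0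

/-- **differentiation under the integral** -/
theorem hasDerivAt_int {F F' : ℝ → (κ → ℝ) → ℝ} (hF : PD F) (hF' : PD F')
    (hd : ∀ t g, HasDerivAt (fun t => F t g) (F' t g) t) (t0 : ℝ) :
    HasDerivAt (fun t => ∫ g, F t g ∂(gpi κ)) (∫ g, F' t0 g ∂(gpi κ)) t0 := by
  obtain ⟨C, c, hC, hc, hb⟩ := hF'.bound (|t0| + 1)
  refine (hasDerivAt_integral_of_dominated_loc_of_deriv_le (μ := gpi κ) (𝕜 := ℝ)
    (F := F) (F' := F') (x₀ := t0) (s := Metric.ball t0 1)
    (bound := fun g => C * Real.exp (c * ∑ i, |g i|)) (Metric.ball_mem_nhds _ one_pos)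
    ?_ ?_ ?_ ?_ ?_ ?_).2
  · exact Eventually.of_forall fun t => (hF.dom t).cont.aestronglyMeasurable
  · exact (hF.dom t0).integrable
  · exact (hF'.dom t0).cont.aestronglyMeasurable
  · refine Eventually.of_forall fun g t ht => ?_
    rw [Real.norm_eq_abs]
    refine hb t ?_ g
    rw [Metric.mem_ball, Real.dist_eq] at ht
    have := abs_sub_abs_le_abs_sub t t0
    linarith
  · exact (integrable_exp_sum c).const_mul C
  · exact Eventually.of_forall fun g t _ => hd t g

lemma sum_elim_abs (K : ι → ℝ) (f : κ → ℝ) :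
    ∑ e, |(Sum.elim K f : ι ⊕ κ → ℝ) e| = ∑ i, |K i| + ∑ j, |f j| := by
  rw [Fintype.sum_sum_type]
  simp only [Sum.elim_inl, Sum.elim_inr]

omit [Fintype ι] [Fintype κ] in
lemma cont_elim : Continuous fun p : (ι → ℝ) × (κ → ℝ) => (Sum.elim p.1 p.2 : ι ⊕ κ → ℝ) := by
  refine continuous_pi fun e => ?_
  rcases e with e | e
  · exact (continuous_apply e).comp continuous_fst
  · exact (continuous_apply e).comp continuous_snd

/-- the marginal of a function of exponential growth -/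
theorem PD.marg {F : ℝ → (ι ⊕ κ → ℝ) → ℝ} (hF : PD F) :
    PD fun t (K : ι → ℝ) => ∫ f, F t (Sum.elim K f) ∂(gpi κ) := by
  have hcF : ∀ f : κ → ℝ, Continuous fun p : ℝ × (ι → ℝ) => F p.1 (Sum.elim p.2 f) := by
    intro f
    exact hF.cont.comp (continuous_fst.prodMk (cont_elim.comp
      (continuous_snd.prodMk continuous_const)))
  have hb2 : ∀ (M : ℝ), ∃ C c : ℝ, 0 ≤ C ∧ 0 ≤ c ∧ ∀ t, |t| ≤ M → ∀ (K : ι → ℝ) (f : κ → ℝ),
      |F t (Sum.elim K f)| ≤ C * Real.exp (c * ∑ i, |K i|) * Real.exp (c * ∑ j, |f j|) := by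
    intro M
    obtain ⟨C, c, hC, hc, hb⟩ := hF.bound M
    refine ⟨C, c, hC, hc, fun t ht K f => (hb t ht _).trans (le_of_eq ?_)⟩
    rw [sum_elim_abs, mul_add, Real.exp_add]
    ring
  refine ⟨?_, fun M => ?_⟩
  · refine continuous_iff_continuousAt.2 fun p0 => ?_
    obtain ⟨C, c, hC, hc, hb⟩ := hb2 (|p0.1| + 1)
    refine continuousAt_of_dominated (μ := gpi κ)
      (F := fun (p : ℝ × (ι → ℝ)) (f : κ → ℝ) => F p.1 (Sum.elim p.2 f))
      (bound := fun f => C * Real.exp (c * (∑ i, |p0.2 i| + 1)) * Real.exp (c * ∑ j, |f j|))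
      ?_ ?_ ?_ ?_
    · exact Eventually.of_forall fun p => ((hF.dom p.1).cont.comp (cont_elim.comp
        (continuous_const.prodMk continuous_id))).aestronglyMeasurable
    · have h1 : ∀ᶠ p : ℝ × (ι → ℝ) in 𝓝 p0, |p.1| < |p0.1| + 1 :=
        (continuous_fst.abs.tendsto p0).eventually_lt_const (by linarith)
      have h2 : ∀ᶠ p : ℝ × (ι → ℝ) in 𝓝 p0, ∑ i, |p.2 i| < ∑ i, |p0.2 i| + 1 := by
        have hc : Continuous fun p : ℝ × (ι → ℝ) => ∑ i, |p.2 i| := by fun_prop
        exact (hc.tendsto p0).eventually_lt_const (by linarith)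
      filter_upwards [h1, h2] with p hp1 hp2
      refine Eventually.of_forall fun f => ?_
      rw [Real.norm_eq_abs]
      refine (hb p.1 hp1.le p.2 f).trans ?_
      gcongr
    · exact (integrable_exp_sum c).const_mul _
    · exact Eventually.of_forall fun f => (hcF f).continuousAt
  · obtain ⟨C, c, hC, hc, hb⟩ := hb2 M
    refine ⟨C * ∫ f, Real.exp (c * ∑ j, |f j|) ∂(gpi κ), c, mul_nonneg hC
      (integral_nonneg fun _ => (Real.exp_pos _).le), hc, fun t ht K => ?_⟩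
    rw [← Real.norm_eq_abs]
    calc ‖∫ f, F t (Sum.elim K f) ∂(gpi κ)‖
        ≤ ∫ f, C * Real.exp (c * ∑ i, |K i|) * Real.exp (c * ∑ j, |f j|) ∂(gpi κ) := by
          refine norm_integral_le_of_norm_le ((integrable_exp_sum c).const_mul _)
            (Eventually.of_forall fun f => ?_)
          rw [Real.norm_eq_abs]
          exact hb t ht K f
      _ = _ := by rw [integral_const_mul]; ring

/-- the log-marginal of an exponential -/
theorem PL.marg {V : ℝ → (ι ⊕ κ → ℝ) → ℝ} (hV : PL V) :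
    PL fun t (K : ι → ℝ) => Real.log (∫ f, Real.exp (V t (Sum.elim K f)) ∂(gpi κ)) := by
  have hpos : ∀ t (K : ι → ℝ), 0 < ∫ f, Real.exp (V t (Sum.elim K f)) ∂(gpi κ) := by
    intro t K
    refine int_exp_pos ⟨(hV.pot t).cont.comp (cont_elim.comp
        (continuous_const.prodMk continuous_id)), ?_⟩
    obtain ⟨A, B, hA, hB, h⟩ := (hV.pot t).bound
    refine ⟨A + B * ∑ i, |K i|, B, by positivity, hB, fun f => (h _).trans (le_of_eq ?_)⟩
    rw [sum_elim_abs]
    ring
  refine ⟨?_, fun M => ?_⟩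
  · exact Continuous.log hV.exp.marg.cont fun p => (hpos p.1 p.2).ne'
  · obtain ⟨A, B, hA, hB, h⟩ := hV.bound M
    obtain ⟨I1, hI1⟩ : ∃ I, I = ∫ f, Real.exp (B * ∑ j, |f j|) ∂(gpi κ) := ⟨_, rfl⟩
    obtain ⟨I2, hI2⟩ : ∃ I, I = ∫ f, Real.exp (-B * ∑ j, |f j|) ∂(gpi κ) := ⟨_, rfl⟩
    have hP : Pot fun f : κ → ℝ => ∑ j, |f j| := ⟨by fun_prop, 0, 1, le_rfl, zero_le_one,
      fun g => by rw [abs_of_nonneg (sum_abs_nonneg g)]; linarith⟩
    have p1 : 0 < I1 := by rw [hI1]; exact int_exp_pos (hP.const_mul B)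
    have p2 : 0 < I2 := by rw [hI2]; exact int_exp_pos (hP.const_mul (-B))
    refine ⟨A + |Real.log I1| + |Real.log I2|, B, by positivity, hB, fun t ht K => ?_⟩
    have hD : Dom fun f : κ → ℝ => Real.exp (V t (Sum.elim K f)) :=
      H863.D29.dom_slice (hV.exp.dom t) K
    have u1 : ∫ f, Real.exp (V t (Sum.elim K f)) ∂(gpi κ) ≤
        Real.exp (A + B * ∑ i, |K i|) * I1 := by
      rw [hI1, ← integral_const_mul]
      refine int_mono hD ((hP.const_mul B).exp.const_mul _) fun f => ?_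
      rw [← Real.exp_add]
      refine Real.exp_le_exp.2 ((le_abs_self _).trans ((h t ht _).trans (le_of_eq ?_)))
      rw [sum_elim_abs]
      ring
    have u2 : Real.exp (-(A + B * ∑ i, |K i|)) * I2 ≤
        ∫ f, Real.exp (V t (Sum.elim K f)) ∂(gpi κ) := by
      rw [hI2, ← integral_const_mul]
      refine int_mono ((hP.const_mul (-B)).exp.const_mul _) hD fun f => ?_
      rw [← Real.exp_add]
      refine Real.exp_le_exp.2 ?_
      have h1 := (abs_le.1 (h t ht (Sum.elim K f))).1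
      rw [sum_elim_abs] at h1
      linarith
    have l1 := Real.log_le_log (hpos t K) u1
    have l2 := Real.log_le_log (mul_pos (Real.exp_pos _) p2) u2
    rw [Real.log_mul (Real.exp_pos _).ne' p1.ne', Real.log_exp] at l1
    rw [Real.log_mul (Real.exp_pos _).ne' p2.ne', Real.log_exp] at l2
    have a1 := le_abs_self (Real.log I1)
    have a2 := neg_abs_le (Real.log I2)
    have a3 := abs_nonneg (Real.log I1)
    have a4 := abs_nonneg (Real.log I2)
    rw [abs_le]
    constructor <;> linarith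

end Vale.Agent.P146.H610
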