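import Vale.Agent.P146.H610.Two

/-!
# P146: planted and pair laws of the two-level law, Brascamp-Lieb bounds (helper610)
-/

open MeasureTheory ProbabilityTheory Filter Topology Set

namespace Vale.Agent.P146.H610

open Vale.Agent.P146 Vale.Agent.P146.H501

set_option linter.unusedSectionVars false

variable {ι κ S : Type} [Fintype ι] [Fintype κ] [Fintype S] [Nonempty S]

/-- the planted potential -/
noncomputable def vp (a : S → ι ⊕ κ → ℝ) (u y : ℝ) (s : S) (g : ι ⊕ κ → ℝ) : ℝ :=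
  en a s g - (1 - u) * lz a g - (1 - y / u) * lx a u fun i => g (Sum.inl i)

/-- two planted configurations in the same leaf -/
noncomputable def vq (a : S → ι ⊕ κ → ℝ) (u y : ℝ) (s t : S) (g : ι ⊕ κ → ℝ) : ℝ :=
  en a s g + en a t g - (2 - u) * lz a g - (1 - y / u) * lx a u fun i => g (Sum.inl i)

/-- the first leaf -/
def sl : ι ⊕ κ → ι ⊕ (κ ⊕ κ) := Sum.map id Sum.inl

/-- the second leaf -/
def sr : ι ⊕ κ → ι ⊕ (κ ⊕ κ) := Sum.map id Sum.inr

/-- two planted configurations in different leaves -/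
noncomputable def vr (a : S → ι ⊕ κ → ℝ) (u y : ℝ) (s t : S) (g : ι ⊕ (κ ⊕ κ) → ℝ) : ℝ :=
  (en a s (fun e => g (sl e)) - (1 - u) * lz a fun e => g (sl e)) +
    (en a t (fun e => g (sr e)) - (1 - u) * lz a fun e => g (sr e)) -
    (2 - y / u) * lx a u fun i => g (Sum.inl i)

lemma vp_pot (a : S → ι ⊕ κ → ℝ) (u y : ℝ) (s : S) : Pot (vp a u y s) :=
  ((en_pot a s).sub ((lz_pot a).const_mul _)).sub (((lx_pot a u).comp Sum.inl).const_mul _)

lemma vq_pot (a : S → ι ⊕ κ → ℝ) (u y : ℝ) (s t : S) : Pot (vq a u y s t) :=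
  (((en_pot a s).add (en_pot a t)).sub ((lz_pot a).const_mul _)).sub
    (((lx_pot a u).comp Sum.inl).const_mul _)

lemma vr_pot (a : S → ι ⊕ κ → ℝ) (u y : ℝ) (s t : S) : Pot (vr a u y s t) :=
  ((((en_pot a s).comp sl).sub (((lz_pot a).comp sl).const_mul _)).add
    (((en_pot a t).comp sr).sub (((lz_pot a).comp sr).const_mul _))).sub
    (((lx_pot a u).comp Sum.inl).const_mul _)

lemma conv_comp {α β : Type} {V : (α → ℝ) → ℝ} (hV : ConvexOn ℝ univ V) (σ : α → β) :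
    ConvexOn ℝ univ fun g : β → ℝ => V fun i => g (σ i) := by
  refine ⟨convex_univ, fun p _ q _ a b ha hb hab => ?_⟩
  have h := hV.2 (mem_univ fun i => p (σ i)) (mem_univ fun i => q (σ i)) ha hb hab
  have e1 : (a • fun i => p (σ i)) + b • (fun i => q (σ i)) = fun i => (a • p + b • q) (σ i) := by
    funext i
    simp only [Pi.add_apply, Pi.smul_apply]
  rw [e1] at h
  exact h

lemma en_lin (a : S → κ → ℝ) (s : S) (α β : ℝ) (p q : κ → ℝ) :
    en a s (α • p + β • q) = α * en a s p + β * en a s q := by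
  unfold en
  rw [Finset.mul_sum, Finset.mul_sum, ← Finset.sum_add_distrib]
  refine Finset.sum_congr rfl fun e _ => ?_
  simp only [Pi.add_apply, Pi.smul_apply, smul_eq_mul]
  ring

lemma en_conc (a : S → κ → ℝ) (s : S) : ConcaveOn ℝ univ (en a s) :=
  ⟨convex_univ, fun p _ q _ α β _ _ _ => by rw [en_lin, smul_eq_mul, smul_eq_mul]⟩

lemma conc_comp {α β : Type} {V : (α → ℝ) → ℝ} (hV : ConcaveOn ℝ univ V) (σ : α → β) :
    ConcaveOn ℝ univ fun g : β → ℝ => V fun i => g (σ i) := by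
  refine ⟨convex_univ, fun p _ q _ a b ha hb hab => ?_⟩
  have h := hV.2 (mem_univ fun i => p (σ i)) (mem_univ fun i => q (σ i)) ha hb hab
  have e1 : (a • fun i => p (σ i)) + b • (fun i => q (σ i)) = fun i => (a • p + b • q) (σ i) := by
    funext i
    simp only [Pi.add_apply, Pi.smul_apply]
  rw [e1] at h
  exact h

lemma conc_sub {α : Type} {V W : (α → ℝ) → ℝ} (hV : ConcaveOn ℝ univ V)
    (hW : ConvexOn ℝ univ W) {c : ℝ} (hc : 0 ≤ c) : ConcaveOn ℝ univ fun g => V g - c * W g := by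
  have h := hV.sub (hW.smul hc)
  exact h

lemma vp_conc (a : S → ι ⊕ κ → ℝ) {u y : ℝ} (hu : 0 < u) (hu1 : u ≤ 1) (hy : y ≤ u) (s : S) :
    ConcaveOn ℝ univ (vp a u y s) := by
  have h1 : 0 ≤ 1 - y / u := by
    have := (div_le_one hu).2 hy
    linarith
  exact conc_sub (conc_sub (en_conc a s) (lz_conv a) (by linarith))
    (conv_comp (lx_conv a hu.le) Sum.inl) h1

lemma vq_conc (a : S → ι ⊕ κ → ℝ) {u y : ℝ} (hu : 0 < u) (hu1 : u ≤ 1) (hy : y ≤ u) (s t : S) :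
    ConcaveOn ℝ univ (vq a u y s t) := by
  have h1 : 0 ≤ 1 - y / u := by
    have := (div_le_one hu).2 hy
    linarith
  exact conc_sub (conc_sub ((en_conc a s).add (en_conc a t)) (lz_conv a) (by linarith))
    (conv_comp (lx_conv a hu.le) Sum.inl) h1

lemma vr_conc (a : S → ι ⊕ κ → ℝ) {u y : ℝ} (hu : 0 < u) (hu1 : u ≤ 1) (hy : y ≤ u) (s t : S) :
    ConcaveOn ℝ univ (vr a u y s t) := by
  have h1 : 0 ≤ 2 - y / u := by
    have := (div_le_one hu).2 hy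
    linarith
  exact conc_sub ((conc_sub (conc_comp (en_conc a s) sl) (conv_comp (lz_conv a) sl)
    (by linarith)).add (conc_sub (conc_comp (en_conc a t) sr) (conv_comp (lz_conv a) sr)
    (by linarith))) (conv_comp (lx_conv a hu.le) Sum.inl) h1

/-! ### the gauge symmetry -/

/-- a transitive group of sign changes, with elements which exchange any two configurations -/
structure Gau (b : S → κ → ℝ) : Prop where
  ex : ∀ s t, ∃ (π : Equiv.Perm S) (χ : κ → ℝ), (∀ e, χ e = 1 ∨ χ e = -1) ∧ π s = t ∧ π t = s ∧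
    ∀ r e, b (π r) e = χ e * b r e

/-- scaled families -/
def sc (τ : κ → ℝ) (b : S → κ → ℝ) (s : S) (e : κ) : ℝ := τ e * b s e

section flip

variable {π : Equiv.Perm S} {χ : κ → ℝ} {a : S → κ → ℝ}

lemma sc_flip {b : S → κ → ℝ} (h : ∀ r e, b (π r) e = χ e * b r e) (τ : κ → ℝ) (r : S) (e : κ) :
    sc τ b (π r) e = χ e * sc τ b r e := by
  unfold sc
  rw [h]
  ring

lemma en_flip (h : ∀ r e, a (π r) e = χ e * a r e) (r : S) (g : κ → ℝ) :
    en a r (fun e => χ e * g e) = en a (π r) g := by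
  unfold en
  refine Finset.sum_congr rfl fun e _ => ?_
  rw [h]
  ring

lemma lz_flip (h : ∀ r e, a (π r) e = χ e * a r e) (g : κ → ℝ) :
    lz a (fun e => χ e * g e) = lz a g := by
  have h1 : ∀ g, lz a g = Real.log (∑ s, Real.exp (en a s g)) := fun g => by
    rw [← exp_lz, Real.log_exp]
  rw [h1, h1]
  congr 1
  simp only [en_flip h]
  exact Equiv.sum_comp π fun s => Real.exp (en a s g)

end flip

lemma elim_flip (χ : ι ⊕ κ → ℝ) (K : ι → ℝ) (f : κ → ℝ) :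
    (Sum.elim (fun i => χ (Sum.inl i) * K i) fun j => χ (Sum.inr j) * f j : ι ⊕ κ → ℝ) =
      fun e => χ e * (Sum.elim K f : ι ⊕ κ → ℝ) e := by
  funext e
  rcases e with e | e <;> simp

lemma lx_flip {π : Equiv.Perm S} {χ : ι ⊕ κ → ℝ} {a : S → ι ⊕ κ → ℝ}
    (hχ : ∀ e, χ e = 1 ∨ χ e = -1) (h : ∀ r e, a (π r) e = χ e * a r e) (u : ℝ) (K : ι → ℝ) :
    lx a u (fun i => χ (Sum.inl i) * K i) = lx a u K := by
  unfold lx
  congr 1
  have hmp := H329.TR.mp_sign (fun j : κ => χ (Sum.inr j)) fun j => hχ _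
  have hD : Continuous fun f : κ → ℝ =>
      Real.exp (u * lz a (Sum.elim (fun i => χ (Sum.inl i) * K i) f)) :=
    (pot_slice ((lz_pot a).const_mul u) _).exp.cont
  conv_lhs => rw [← hmp.map_eq]
  rw [integral_map hmp.measurable.aemeasurable hD.aestronglyMeasurable]
  refine integral_congr_ae (Eventually.of_forall fun f => ?_)
  simp only
  rw [elim_flip, lz_flip h]

lemma vq_comm (a : S → ι ⊕ κ → ℝ) (u y : ℝ) (s t : S) : vq a u y s t = vq a u y t s := by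
  funext g
  unfold vq
  ring

/-- **same leaf**: the difference of the two linear statistics -/
theorem pair_same {b : S → ι ⊕ κ → ℝ} (hb : Gau b) (τ lam : ι ⊕ κ → ℝ) {u y : ℝ} (hu : 0 < u)
    (hu1 : u ≤ 1) (hy : y ≤ u) (s t : S) :
    ∫ g, (en (sc lam b) s g - en (sc lam b) t g) ^ 2 * Real.exp (vq (sc τ b) u y s t g)
      ∂(gpi (ι ⊕ κ)) ≤ (∑ e, (lam e * (b s e - b t e)) ^ 2) *
        ∫ g, Real.exp (vq (sc τ b) u y s t g) ∂(gpi (ι ⊕ κ)) := by
  obtain ⟨π, χ, hχ, h1, h2, h3⟩ := hb.ex s t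
  have key := bl_even (vq_pot (sc τ b) u y s t) (vq_conc (sc τ b) hu hu1 hy s t)
    (fun e => lam e * (b s e - b t e)) (fun g e => χ e * g e) (H329.TR.mp_sign χ hχ)
    (fun g => ?_) (fun g => ?_)
  · have e1 : ∀ g : ι ⊕ κ → ℝ, en (sc lam b) s g - en (sc lam b) t g =
        ∑ e, lam e * (b s e - b t e) * g e := by
      intro g
      unfold en sc
      rw [← Finset.sum_sub_distrib]
      exact Finset.sum_congr rfl fun e _ => by ring
    simp only [e1]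
    exact key
  · unfold vq
    rw [en_flip (sc_flip h3 τ), en_flip (sc_flip h3 τ), lz_flip (sc_flip h3 τ), h1, h2,
      lx_flip hχ (sc_flip h3 τ)]
    ring
  · have e1 : ∀ g : ι ⊕ κ → ℝ, ∑ e, lam e * (b s e - b t e) * g e =
        en (sc lam b) s g - en (sc lam b) t g := by
      intro g
      unfold en sc
      rw [← Finset.sum_sub_distrib]
      exact Finset.sum_congr rfl fun e _ => by ring
    rw [e1, e1, en_flip (sc_flip h3 lam), en_flip (sc_flip h3 lam), h1, h2]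
    ring

/-- the exchange of the two leaves -/
def swl : ι ⊕ (κ ⊕ κ) ≃ ι ⊕ (κ ⊕ κ) := Equiv.sumCongr (Equiv.refl ι) (Equiv.sumComm κ κ)

lemma swl_inl (i : ι) : (swl : ι ⊕ (κ ⊕ κ) ≃ ι ⊕ (κ ⊕ κ)) (Sum.inl i) = Sum.inl i := rfl

lemma swl_sl (e : ι ⊕ κ) : (swl : ι ⊕ (κ ⊕ κ) ≃ ι ⊕ (κ ⊕ κ)) (sl e) = sr e := by
  rcases e with e | e <;> rfl

lemma swl_sr (e : ι ⊕ κ) : (swl : ι ⊕ (κ ⊕ κ) ≃ ι ⊕ (κ ⊕ κ)) (sr e) = sl e := by
  rcases e with e | e <;> rfl

/-- the signs on the two leaves -/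
def chi2 (χ : ι ⊕ κ → ℝ) : ι ⊕ (κ ⊕ κ) → ℝ :=
  Sum.elim (fun i => χ (Sum.inl i)) (Sum.elim (fun j => χ (Sum.inr j)) fun j => χ (Sum.inr j))

lemma chi2_sl (χ : ι ⊕ κ → ℝ) (e : ι ⊕ κ) : chi2 χ (sl e) = χ e := by
  rcases e with e | e <;> rfl

lemma chi2_sr (χ : ι ⊕ κ → ℝ) (e : ι ⊕ κ) : chi2 χ (sr e) = χ e := by
  rcases e with e | e <;> rfl

/-- the linear statistics of two leaves -/
noncomputable def l2 (lam : ι ⊕ κ → ℝ) (b : S → ι ⊕ κ → ℝ) (s t : S) : ι ⊕ (κ ⊕ κ) → ℝ :=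
  Sum.elim (fun i => lam (Sum.inl i) * (b s (Sum.inl i) - b t (Sum.inl i)))
    (Sum.elim (fun j => lam (Sum.inr j) * b s (Sum.inr j))
      fun j => -(lam (Sum.inr j) * b t (Sum.inr j)))

lemma l2_eq (lam : ι ⊕ κ → ℝ) (b : S → ι ⊕ κ → ℝ) (s t : S) (g : ι ⊕ (κ ⊕ κ) → ℝ) :
    ∑ e, l2 lam b s t e * g e = en (sc lam b) s (fun e => g (sl e)) -
      en (sc lam b) t fun e => g (sr e) := by
  unfold en sc l2 sl sr
  simp only [Fintype.sum_sum_type, Sum.elim_inl, Sum.elim_inr, Sum.map_inl, Sum.map_inr, id_eq,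
    neg_mul, Finset.sum_neg_distrib]
  have e1 : ∑ i, lam (Sum.inl i) * (b s (Sum.inl i) - b t (Sum.inl i)) * g (Sum.inl i) =
      ∑ i, lam (Sum.inl i) * b s (Sum.inl i) * g (Sum.inl i) -
        ∑ i, lam (Sum.inl i) * b t (Sum.inl i) * g (Sum.inl i) := by
    rw [← Finset.sum_sub_distrib]
    exact Finset.sum_congr rfl fun i _ => by ring
  rw [e1]
  ring

lemma l2_sq (lam : ι ⊕ κ → ℝ) (b : S → ι ⊕ κ → ℝ) (s t : S) :
    ∑ e, l2 lam b s t e ^ 2 = (∑ e, (lam e * b s e) ^ 2) + (∑ e, (lam e * b t e) ^ 2) -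
      2 * ∑ i, lam (Sum.inl i) ^ 2 * (b s (Sum.inl i) * b t (Sum.inl i)) := by
  unfold l2
  simp only [Fintype.sum_sum_type, Sum.elim_inl, Sum.elim_inr, neg_sq]
  have e1 : ∑ i, (lam (Sum.inl i) * (b s (Sum.inl i) - b t (Sum.inl i))) ^ 2 =
      ∑ i, (lam (Sum.inl i) * b s (Sum.inl i)) ^ 2 + ∑ i, (lam (Sum.inl i) * b t (Sum.inl i)) ^ 2 -
        2 * ∑ i, lam (Sum.inl i) ^ 2 * (b s (Sum.inl i) * b t (Sum.inl i)) := by
    rw [Finset.mul_sum, ← Finset.sum_add_distrib, ← Finset.sum_sub_distrib]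
    exact Finset.sum_congr rfl fun i _ => by ring
  rw [e1]
  ring

/-- **different leaves**: the difference of the two linear statistics -/
theorem pair_diff {b : S → ι ⊕ κ → ℝ} (hb : Gau b) (τ lam : ι ⊕ κ → ℝ) {u y : ℝ} (hu : 0 < u)
    (hu1 : u ≤ 1) (hy : y ≤ u) (s t : S) :
    ∫ g, (en (sc lam b) s (fun e => g (sl e)) - en (sc lam b) t fun e => g (sr e)) ^ 2 *
      Real.exp (vr (sc τ b) u y s t g) ∂(gpi (ι ⊕ (κ ⊕ κ))) ≤ (∑ e, l2 lam b s t e ^ 2) *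
        ∫ g, Real.exp (vr (sc τ b) u y s t g) ∂(gpi (ι ⊕ (κ ⊕ κ))) := by
  obtain ⟨π, χ, hχ, h1, h2, h3⟩ := hb.ex s t
  have hχ2 : ∀ e, chi2 χ e = 1 ∨ chi2 χ e = -1 := by
    rintro (e | e | e)
    · exact hχ _
    · exact hχ _
    · exact hχ _
  have hsw : ∀ e, chi2 χ (swl e) = chi2 χ e := by
    rintro (e | e | e) <;> rfl
  have hT : MeasurePreserving (fun (g : ι ⊕ (κ ⊕ κ) → ℝ) e => chi2 χ e * g (swl e))
      (gpi (ι ⊕ (κ ⊕ κ))) (gpi (ι ⊕ (κ ⊕ κ))) :=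
    (H329.TR.mp_sign (chi2 χ) hχ2).comp (mp_perm swl)
  have e1 : ∀ g : ι ⊕ (κ ⊕ κ) → ℝ, (fun e => chi2 χ (sl e) * g (swl (sl e))) =
      fun e => χ e * g (sr e) := fun g => by
    funext e
    rw [chi2_sl, swl_sl]
  have e2 : ∀ g : ι ⊕ (κ ⊕ κ) → ℝ, (fun e => chi2 χ (sr e) * g (swl (sr e))) =
      fun e => χ e * g (sl e) := fun g => by
    funext e
    rw [chi2_sr, swl_sr]
  have key := bl_even (vr_pot (sc τ b) u y s t) (vr_conc (sc τ b) hu hu1 hy s t)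
    (l2 lam b s t) (fun g e => chi2 χ e * g (swl e)) hT (fun g => ?_) (fun g => ?_)
  · simp only [l2_eq] at key
    exact key
  · unfold vr
    simp only
    rw [e1, e2, en_flip (sc_flip h3 τ), en_flip (sc_flip h3 τ), lz_flip (sc_flip h3 τ),
      lz_flip (sc_flip h3 τ), h1, h2]
    have e3 : (fun i : ι => chi2 χ (Sum.inl i) * g (swl (Sum.inl i))) =
        fun i => χ (Sum.inl i) * g (Sum.inl i) := rfl
    rw [e3, lx_flip hχ (sc_flip h3 τ)]
    ring
  · rw [l2_eq, l2_eq]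
    rw [e1, e2, en_flip (sc_flip h3 lam), en_flip (sc_flip h3 lam), h1, h2]
    ring

end Vale.Agent.P146.H610
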