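import Vale.Agent.P146.H610.Par
import Vale.Agent.P146.H329.Trans

/-!
# P146: the potentials of the two-level law (helper610)

`a : S → ι ⊕ κ → ℝ`: the coordinates `ι` are the level-one disorder `K`, the coordinates `κ` the
level-two disorder `f`. `lz a g = log ∑ s, exp (∑ e, a s e * g e)` and
`lx a u K = log ∫ f, exp (u * lz a (K, f))`.
-/

open MeasureTheory ProbabilityTheory Filter Topology Set

namespace Vale.Agent.P146.H610

open Vale.Agent.P146 Vale.Agent.P146.H501

variable {ι κ S : Type} [Fintype ι] [Fintype κ] [Fintype S]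

lemma Pot.dom {V : (κ → ℝ) → ℝ} (hV : Pot V) : Dom V := by
  obtain ⟨A, B, hA, hB, h⟩ := hV.bound
  refine ⟨hV.cont, A + B, 1, by positivity, zero_le_one, fun g => (h g).trans ?_⟩
  have h1 := Real.add_one_le_exp (∑ i, |g i|)
  have h2 := sum_abs_nonneg g
  rw [one_mul]
  nlinarith

lemma PL.pd {V : ℝ → (κ → ℝ) → ℝ} (hV : PL V) : PD V := by
  refine ⟨hV.cont, fun M => ?_⟩
  obtain ⟨A, B, hA, hB, h⟩ := hV.bound M
  refine ⟨A + B, 1, by positivity, zero_le_one, fun t ht g => (h t ht g).trans ?_⟩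
  have h1 := Real.add_one_le_exp (∑ i, |g i|)
  have h2 := sum_abs_nonneg g
  rw [one_mul]
  nlinarith

lemma Pot.sub {V W : (κ → ℝ) → ℝ} (hV : Pot V) (hW : Pot W) : Pot fun g => V g - W g := by
  have h := hV.add (hW.const_mul (-1))
  simpa [sub_eq_add_neg] using h

/-- the tangent form of Jensen's inequality -/
lemma log_int_tangent {M W : (κ → ℝ) → ℝ} (hM : Pot M) (hW : Pot W) :
    Real.log (∫ f, Real.exp (M f) ∂(gpi κ)) +
      (∫ f, (W f - M f) * Real.exp (M f) ∂(gpi κ)) / (∫ f, Real.exp (M f) ∂(gpi κ)) ≤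
      Real.log (∫ f, Real.exp (W f) ∂(gpi κ)) := by
  obtain ⟨I, hI⟩ : ∃ I, I = ∫ f, Real.exp (M f) ∂(gpi κ) := ⟨_, rfl⟩
  obtain ⟨J, hJ⟩ : ∃ J, J = ∫ f, (W f - M f) * Real.exp (M f) ∂(gpi κ) := ⟨_, rfl⟩
  have hI0 : 0 < I := by rw [hI]; exact int_exp_pos hM
  obtain ⟨c, hc⟩ : ∃ c, c = J / I := ⟨_, rfl⟩
  have hcI : c * I = J := by rw [hc]; field_simp
  have h1 : ∫ f, Real.exp c * ((1 - c) * Real.exp (M f) + (W f - M f) * Real.exp (M f))
      ∂(gpi κ) ≤ ∫ f, Real.exp (W f) ∂(gpi κ) := by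
    refine int_mono (((hM.exp.const_mul _).add ((hW.sub hM).dom.mul hM.exp)).const_mul _)
      hW.exp fun f => ?_
    have h2 := Real.add_one_le_exp (W f - M f - c)
    have e : Real.exp (W f) = Real.exp c * (Real.exp (W f - M f - c) * Real.exp (M f)) := by
      rw [← Real.exp_add, ← Real.exp_add]
      congr 1
      ring
    rw [e]
    refine mul_le_mul_of_nonneg_left ?_ (Real.exp_pos _).le
    have h3 := mul_le_mul_of_nonneg_right h2 (Real.exp_pos (M f)).le
    linarith
  rw [integral_const_mul, int_add (hM.exp.const_mul _) ((hW.sub hM).dom.mul hM.exp),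
    integral_const_mul, ← hI, ← hJ, ← hcI] at h1
  have h2 : (1 - c) * I + c * I = I := by ring
  rw [h2] at h1
  have h3 := Real.log_le_log (mul_pos (Real.exp_pos _) hI0) h1
  rw [Real.log_mul (Real.exp_pos _).ne' hI0.ne', Real.log_exp] at h3
  rw [← hI, ← hJ, ← hc]
  linarith

/-- convexity of the log-integral -/
lemma log_int_conv {V0 V1 Vm : (κ → ℝ) → ℝ} (h0 : Pot V0) (h1 : Pot V1) (hm : Pot Vm) {a b : ℝ}
    (ha : 0 ≤ a) (hb : 0 ≤ b) (hab : a + b = 1) (h : ∀ f, Vm f ≤ a * V0 f + b * V1 f) :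
    Real.log (∫ f, Real.exp (Vm f) ∂(gpi κ)) ≤
      a * Real.log (∫ f, Real.exp (V0 f) ∂(gpi κ)) +
        b * Real.log (∫ f, Real.exp (V1 f) ∂(gpi κ)) := by
  have hM : Pot fun f => a * V0 f + b * V1 f := (h0.const_mul a).add (h1.const_mul b)
  have h2 : Real.log (∫ f, Real.exp (Vm f) ∂(gpi κ)) ≤
      Real.log (∫ f, Real.exp (a * V0 f + b * V1 f) ∂(gpi κ)) :=
    Real.log_le_log (int_exp_pos hm) (int_mono hm.exp hM.exp fun f => Real.exp_le_exp.2 (h f))
  have t0 := mul_le_mul_of_nonneg_left (log_int_tangent hM h0) ha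
  have t1 := mul_le_mul_of_nonneg_left (log_int_tangent hM h1) hb
  obtain ⟨I, hI⟩ : ∃ I, I = ∫ f, Real.exp (a * V0 f + b * V1 f) ∂(gpi κ) := ⟨_, rfl⟩
  have h3 : a * ∫ f, (V0 f - (a * V0 f + b * V1 f)) * Real.exp (a * V0 f + b * V1 f) ∂(gpi κ) +
      b * ∫ f, (V1 f - (a * V0 f + b * V1 f)) * Real.exp (a * V0 f + b * V1 f) ∂(gpi κ) = 0 := by
    rw [← integral_const_mul, ← integral_const_mul, ← int_add
      (((h0.sub hM).dom.mul hM.exp).const_mul a) (((h1.sub hM).dom.mul hM.exp).const_mul b)]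
    have e : ∀ f : κ → ℝ, a * ((V0 f - (a * V0 f + b * V1 f)) *
        Real.exp (a * V0 f + b * V1 f)) + b * ((V1 f - (a * V0 f + b * V1 f)) *
        Real.exp (a * V0 f + b * V1 f)) = 0 := by
      intro f
      have hb' : b = 1 - a := by linarith
      rw [hb']
      ring
    simp only [e, integral_zero]
  rw [← hI] at t0 t1 h2
  have e3 : a * (Real.log I + (∫ f, (V0 f - (a * V0 f + b * V1 f)) *
      Real.exp (a * V0 f + b * V1 f) ∂(gpi κ)) / I) +
      b * (Real.log I + (∫ f, (V1 f - (a * V0 f + b * V1 f)) *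
      Real.exp (a * V0 f + b * V1 f) ∂(gpi κ)) / I) = (a + b) * Real.log I +
      (a * (∫ f, (V0 f - (a * V0 f + b * V1 f)) * Real.exp (a * V0 f + b * V1 f) ∂(gpi κ)) +
      b * ∫ f, (V1 f - (a * V0 f + b * V1 f)) * Real.exp (a * V0 f + b * V1 f) ∂(gpi κ)) / I := by
    ring
  rw [h3, hab, zero_div, add_zero, one_mul] at e3
  linarith

/-! ### the one-level free energy -/

/-- the energy -/
noncomputable def en (a : S → κ → ℝ) (s : S) (g : κ → ℝ) : ℝ := ∑ e, a s e * g e

/-- the log-partition function -/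
noncomputable def lz (a : S → κ → ℝ) (g : κ → ℝ) : ℝ := Real.log (zz a (fun _ => 0) g)

lemma en_pot (a : S → κ → ℝ) (s : S) : Pot (en a s) := Pot.lin (a s)

lemma wt_eq (a : S → κ → ℝ) (g : κ → ℝ) (s : S) : wt a (fun _ => 0) g s = Real.exp (en a s g) := by
  unfold wt en
  rw [add_zero]

variable [Nonempty S]

lemma lz_pot (a : S → κ → ℝ) : Pot (lz a) := by
  refine ⟨log_zz_cont a _, Real.log (Fintype.card S), ∑ s, ∑ i, |a s i|, ?_,
    Finset.sum_nonneg fun _ _ => Finset.sum_nonneg fun _ _ => abs_nonneg _, fun g => ?_⟩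
  · exact Real.log_natCast_nonneg _
  · have h := log_zz_bound a (fun _ => 0) g
    simp only [abs_zero, Finset.sum_const_zero, add_zero] at h
    unfold lz
    linarith

lemma exp_lz (a : S → κ → ℝ) (g : κ → ℝ) : Real.exp (lz a g) = ∑ s, Real.exp (en a s g) := by
  unfold lz
  rw [Real.exp_log (zz_pos a _ g)]
  unfold zz
  exact Finset.sum_congr rfl fun s _ => wt_eq a g s

lemma lz_conv (a : S → κ → ℝ) : ConvexOn ℝ univ (lz a) := by
  refine ⟨convex_univ, fun p _ q _ α β ha hb hab => ?_⟩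
  have h := H329.SW.lse_conv (fun s => en a s p) (fun s => en a s q) ha hb hab
  have e : ∀ g : κ → ℝ, lz a g = Real.log (∑ s, Real.exp (en a s g)) := by
    intro g
    rw [← exp_lz, Real.log_exp]
  rw [e, e, e, smul_eq_mul, smul_eq_mul]
  refine le_trans (le_of_eq ?_) h
  congr 1
  refine Finset.sum_congr rfl fun s _ => ?_
  congr 1
  unfold en
  rw [Finset.mul_sum, Finset.mul_sum, ← Finset.sum_add_distrib]
  refine Finset.sum_congr rfl fun e _ => ?_
  simp only [Pi.add_apply, Pi.smul_apply, smul_eq_mul]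
  ring

/-- parametric version -/
lemma en_PL {a : ℝ → S → κ → ℝ} (ha : ∀ s e, Continuous fun t => a t s e) (s : S) :
    PL fun t g => en (a t) s g := PL.lin fun e => ha s e

lemma lz_PL {a : ℝ → S → κ → ℝ} (ha : ∀ s e, Continuous fun t => a t s e) :
    PL fun t g => lz (a t) g := by
  refine ⟨?_, fun M => ?_⟩
  · have h : Continuous fun p : ℝ × (κ → ℝ) => ∑ s, Real.exp (en (a p.1) s p.2) :=
      continuous_finsetSum _ fun s _ => Real.continuous_exp.comp (en_PL ha s).cont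
    have h2 : (fun p : ℝ × (κ → ℝ) => lz (a p.1) p.2) =
        fun p => Real.log (∑ s, Real.exp (en (a p.1) s p.2)) := by
      funext p
      rw [← exp_lz, Real.log_exp]
    rw [h2]
    exact h.log fun p => (Finset.sum_pos (fun _ _ => Real.exp_pos _) Finset.univ_nonempty).ne'
  · have hc : Continuous fun t => ∑ s, ∑ i, |a t s i| :=
      continuous_finsetSum _ fun s _ => continuous_finsetSum _ fun i _ => (ha s i).abs
    obtain ⟨C, hC⟩ := (isCompact_Icc (a := -M) (b := M)).exists_bound_of_continuousOn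
      hc.continuousOn
    refine ⟨Real.log (Fintype.card S), |C|, Real.log_natCast_nonneg _, abs_nonneg _,
      fun t ht g => ?_⟩
    have h := log_zz_bound (a t) (fun _ => 0) g
    simp only [abs_zero, Finset.sum_const_zero, add_zero] at h
    have h1 := hC t (abs_le.1 ht)
    rw [Real.norm_eq_abs] at h1
    have h2 : ∑ s, ∑ i, |a t s i| ≤ |C| := (le_abs_self _).trans (h1.trans (le_abs_self C))
    have h3 := mul_le_mul_of_nonneg_right h2 (sum_abs_nonneg g)
    unfold lz
    linarith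

/-- Gibbs averages with continuous parameter -/
lemma gav_PD {a : ℝ → S → κ → ℝ} (ha : ∀ s e, Continuous fun t => a t s e) {f : ℝ → S → ℝ}
    (hf : ∀ s, Continuous fun t => f t s) :
    PD fun t g => gav (a t) (fun _ => 0) (f t) g := by
  have h1 : PD fun t g => ∑ s, f t s * Real.exp (en (a t) s g - lz (a t) g) :=
    PD.sum _ fun s _ => (PD.param (hf s)).mul ((en_PL ha s).sub (lz_PL ha)).exp
  have e : (fun t (g : κ → ℝ) => gav (a t) (fun _ => 0) (f t) g) =
      fun t g => ∑ s, f t s * Real.exp (en (a t) s g - lz (a t) g) := by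
    funext t g
    unfold gav
    rw [Finset.sum_div]
    refine Finset.sum_congr rfl fun s _ => ?_
    rw [Real.exp_sub, wt_eq, mul_div_assoc]
    congr 2
    unfold lz
    rw [Real.exp_log (zz_pos _ _ _)]
  rw [e]
  exact h1

/-! ### the two-level free energy -/

/-- the logarithm of the inner moment -/
noncomputable def lx (a : S → ι ⊕ κ → ℝ) (u : ℝ) (K : ι → ℝ) : ℝ :=
  Real.log (∫ f, Real.exp (u * lz a (Sum.elim K f)) ∂(gpi κ))

lemma lx_PL {a : ℝ → S → ι ⊕ κ → ℝ} (ha : ∀ s e, Continuous fun t => a t s e) (u : ℝ) :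
    PL fun t K => lx (a t) u K := ((lz_PL ha).const_mul u).marg

lemma lx_pot (a : S → ι ⊕ κ → ℝ) (u : ℝ) : Pot (lx a u) :=
  (lx_PL (a := fun _ => a) (fun _ _ => continuous_const) u).pot 0

lemma pot_slice {V : (ι ⊕ κ → ℝ) → ℝ} (hV : Pot V) (K : ι → ℝ) :
    Pot fun f : κ → ℝ => V (Sum.elim K f) := by
  obtain ⟨A, B, hA, hB, h⟩ := hV.bound
  refine ⟨hV.cont.comp (cont_elim.comp (continuous_const.prodMk continuous_id)),
    A + B * ∑ i, |K i|, B, by positivity, hB, fun f => (h _).trans (le_of_eq ?_)⟩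
  rw [sum_elim_abs]
  ring

lemma lx_conv (a : S → ι ⊕ κ → ℝ) {u : ℝ} (hu : 0 ≤ u) : ConvexOn ℝ univ (lx a u) := by
  refine ⟨convex_univ, fun p _ q _ α β ha hb hab => ?_⟩
  unfold lx
  rw [smul_eq_mul, smul_eq_mul]
  refine log_int_conv (pot_slice ((lz_pot a).const_mul u) p)
    (pot_slice ((lz_pot a).const_mul u) q) (pot_slice ((lz_pot a).const_mul u) _) ha hb hab
    fun f => ?_
  have h := (lz_conv a).2 (mem_univ (Sum.elim p f)) (mem_univ (Sum.elim q f)) ha hb hab
  have e : α • (Sum.elim p f : ι ⊕ κ → ℝ) + β • (Sum.elim q f : ι ⊕ κ → ℝ) =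
      Sum.elim (α • p + β • q) f := by
    funext e
    rcases e with e | e
    · simp only [Pi.add_apply, Pi.smul_apply, Sum.elim_inl]
    · simp only [Pi.add_apply, Pi.smul_apply, Sum.elim_inr, ← add_smul, hab, one_smul]
  rw [e, smul_eq_mul, smul_eq_mul] at h
  have h2 := mul_le_mul_of_nonneg_left h hu
  linarith

lemma exp_lx (a : S → ι ⊕ κ → ℝ) (u : ℝ) (K : ι → ℝ) :
    Real.exp (lx a u K) = ∫ f, Real.exp (u * lz a (Sum.elim K f)) ∂(gpi κ) := by
  unfold lx
  exact Real.exp_log (int_exp_pos (pot_slice ((lz_pot a).const_mul u) K))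

end Vale.Agent.P146.H610
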